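import Vale.Agent.P148.R2.H659.Close1
import Vale.Agent.P148.R2.H400.Flip5

/-!
# The closing chain in time form

`o` is a dart of a closed strand for `w` (for instance the foot at the start of the arc `J`), `c 0, …` are
the members of the main cycle in the order of time (times `τ i < per`), `tb` is the time of the end of `J`.
An excursion which faces all the darts with real tail among the members of times `< tb` is closed by
the members with times in `[τ iy, τ ix)`, `tb ≤ τ iy ≤ τ ix < per`.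
-/

namespace Vale.Agent.P148.R2.H659

open Function Vale.Agent.P148.R2.H258 Vale.Agent.P148.R2.H871 Vale.Agent.P148.R2.H838
  Vale.Agent.P148.R2.H400 Vale.Agent.P148.R2.H258.Tri

variable {V V1 D : Type*} {T : Tri V D} {T1 : Tri V1 D} {π : V → V1} {O : V1}

/-- `class_cycle` with the times. -/
theorem class_times [Finite D] (hP : T.Planar) {σ : V → Bool} {d : D} (h : T.Mi σ d)
    (hg : T.apex d ≠ T.src d) : ∃ m : ℕ, 1 ≤ m ∧ T.pos σ d m = per T σ d ∧
      (∀ i k, i < k → k ≤ m → T.pos σ d i < T.pos σ d k) ∧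
      (∀ i, T.src ((T.st σ)^[T.pos σ d (i + 1)] d) = T.apex ((T.st σ)^[T.pos σ d i] d) ∨ m ≤ i) ∧
      (∀ i < m, ∀ k < m, T.src ((T.st σ)^[T.pos σ d i] d) = T.src ((T.st σ)^[T.pos σ d k] d) →
        i = k) ∧
      (∀ g, T.Rel σ d g ↔ ∃ i < m, g = (T.st σ)^[T.pos σ d i] d) := by
  classical
  set L := minimalPeriod (T.st σ) d with hL
  have hL0 : 0 < L := T.pos_period σ d
  have hex : ∃ m, L ≤ T.pos σ d m := by
    by_contra hc
    push Not at hc
    have : ∀ i, i ≤ T.pos σ d i := by
      intro i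
      induction i with
      | zero => exact Nat.zero_le _
      | succ i ih =>
        have := (T.pos_step hP h hg i (fun k _ => hc k)).1
        omega
    have h1 := this L
    have h2 := hc L
    omega
  set m := Nat.find hex with hm
  have hm1 : L ≤ T.pos σ d m := Nat.find_spec hex
  have hm2 : ∀ k < m, T.pos σ d k < L := fun k hk => by
    have := Nat.find_min hex hk
    push Not at this
    exact this
  have hm0 : 1 ≤ m := by
    rcases Nat.eq_zero_or_pos m with h0 | h0
    · rw [h0, T.pos_zero] at hm1; omega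
    · exact h0
  have hmL : T.pos σ d m = L := by
    have := (T.pos_step hP h hg (m - 1) (fun k hk => hm2 k (by omega))).2
    rw [Nat.sub_add_cancel hm0] at this
    omega
  have hmono : ∀ i k, i < k → k ≤ m → T.pos σ d i < T.pos σ d k := by
    intro i k hik
    induction k with
    | zero => omega
    | succ k ih =>
      intro hk
      have h1 := (T.pos_step hP h hg k (fun l hl => hm2 l (by omega))).1
      rcases Nat.lt_succ_iff_lt_or_eq.1 hik with h2 | h2
      · have := ih h2 (by omega); omega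
      · rw [h2]; exact h1
  have hprops := fun i (hi : i < m) => T.pos_props hP h hg i (fun k hk => hm2 k (by omega))
  have hkey : ∀ i k, i < k → k < m →
      T.src ((T.st σ)^[T.pos σ d i] d) ≠ T.src ((T.st σ)^[T.pos σ d k] d) := by
    intro i k hik hk hh
    rcases Nat.eq_zero_or_pos i with h0 | h0
    · subst h0
      rw [T.pos_zero, iterate_zero, id_eq] at hh
      have h1 := (hprops k hk).2.2.1 (T.pos σ d k) L (by have := hmono 0 k hik hk.le; omega)
        le_rfl (hm2 k hk) le_rfl
      rw [hL, iterate_minimalPeriod] at h1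
      exact h1 hh.symm
    · have h1 := (hprops i (by omega)).2.2.1 (T.pos σ d i) (T.pos σ d k)
        (by have := hmono 0 i h0 (by omega); omega) le_rfl (hmono i k hik hk.le) (hm2 k hk).le
      exact h1 hh
  refine ⟨m, hm0, hmL, hmono, ?_, ?_, ?_⟩
  · intro i
    rcases Nat.lt_or_ge i m with hi | hi
    · left; rw [T.iter_pos_succ, T.src_nx (hprops i hi).1]
    · right; exact hi
  · intro i hi k hk hh
    rcases lt_trichotomy i k with h1 | h1 | h1
    · exact absurd hh (hkey i k h1 hk)
    · exact h1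
    · exact absurd hh.symm (hkey k i h1 hi)
  · intro g
    constructor
    · rintro ⟨-, -, n, hn, hne, hdis⟩
      have hex2 : ∃ i, i < m ∧ T.pos σ d i ≤ n ∧ n < T.pos σ d (i + 1) := by
        by_contra hc
        push Not at hc
        have : ∀ i, i ≤ m → T.pos σ d i ≤ n := by
          intro i
          induction i with
          | zero => intro _; rw [T.pos_zero]; exact Nat.zero_le _
          | succ i ih =>
            intro hi
            exact hc i (by omega) (ih (by omega))
        have := this m le_rfl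
        omega
      obtain ⟨i, hi, h1, h2⟩ := hex2
      refine ⟨i, hi, ?_⟩
      rcases h1.lt_or_eq with h3 | h3
      · exfalso
        have h4 := T.jst_spec (hprops i hi).1
        have h5 := T.src_iter_one (hprops i hi).1
        rw [← iterate_add_apply, add_comm, ← T.pos_succ] at h4
        rw [← iterate_add_apply] at h5
        exact hdis (1 + T.pos σ d i) (T.pos σ d (i + 1)) (by omega) (by omega) h2
          (by have := (T.pos_step hP h hg i (fun k hk => hm2 k (by omega))).2; omega)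
          (h5.trans h4.symm)
      · rw [← hne, ← h3]
    · rintro ⟨i, hi, rfl⟩
      exact (hprops i hi).2.2.2

/-- The members of the main cycle in the order of time along the strand of `o`. -/
structure Loop (T : Tri V D) (π : V → V1) (O : V1) (w : V → Bool) (o : D) (n : ℕ) (c : ℕ → D)
    (t : ℕ → ℕ) : Prop where
  bi : T.Bi w o
  ring : Ring T π O w c n
  hit : ∀ i < n, (T.st w)^[t i] o = c i
  lt : ∀ i < n, t i < per T w o
  mono : ∀ i j, i < j → j < n → t i < t j
  all : ∀ m < per T w o, T.Rel w (c 0) ((T.st w)^[m] o) → ∃ i < n, t i = m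
  mem : ∀ i < n, T.Rel w (c 0) (c i)

theorem exists_loop [Finite D] (hP : T.Planar) {w : V → Bool} {o : D} {m0 : ℕ}
    (hm : T.Mi w ((T.st w)^[m0] o))
    (hg : T.apex ((T.st w)^[m0] o) ≠ T.src ((T.st w)^[m0] o))
    (hseen : ∀ k, π (T.src ((T.st w)^[k] o)) = O ∧ π (T.tgt ((T.st w)^[k] o)) = O)
    (hring : ∀ e, π (T.src e) = O → π (T.tgt e) ≠ O →
      ∃ g, T.Rel w ((T.st w)^[m0] o) g ∧ T.src e = T.src g) :
    ∃ n c t, Loop T π O w o n c t ∧ ∀ g, T.Rel w ((T.st w)^[m0] o) g ↔ ∃ i < n, g = c i := by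
  classical
  set e0 := (T.st w)^[m0] o with he0
  have hbo : T.Bi w o := (T.bi_iter m0).1 hm.bi
  have hL0 : 0 < per T w o := per_pos T w o
  have hmod : ∀ m, (T.st w)^[m % per T w o] o = (T.st w)^[m] o := fun m =>
    iterate_mod_minimalPeriod_eq
  have hex : ∃ m, T.Rel w e0 ((T.st w)^[m] o) := ⟨m0, T.rel_refl hm⟩
  set t0 := Nat.find hex with ht0
  have h1 : T.Rel w e0 ((T.st w)^[t0] o) := Nat.find_spec hex
  have h2 : ∀ m < t0, ¬ T.Rel w e0 ((T.st w)^[m] o) := fun m hm => Nat.find_min hex hm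
  set e1 := (T.st w)^[t0] o with he1
  have hm1 : T.Mi w e1 := h1.2.1
  have hg1 : T.apex e1 ≠ T.src e1 := by
    obtain ⟨m, f, -, -, -, -, -, hrel, hnd⟩ := T.class_cycle hP hm hg
    obtain ⟨i, hi, hie⟩ := (hrel e1).1 h1
    rw [hie]; exact hnd i hi
  obtain ⟨n, hn, hpL, hmono, hs, hinj, hrel⟩ := class_times hP hm1 hg1
  have hper : per T w e1 = per T w o := per_iter T w o t0
  have hit : ∀ k, (T.st w)^[k] e1 = (T.st w)^[t0 + k] o := by
    intro k; rw [he1, ← iterate_add_apply, add_comm]
  have hposlt : ∀ i < n, T.pos w e1 i < per T w o := by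
    intro i hi
    rw [← hper, ← hpL]; exact hmono i n hi le_rfl
  have hpos0 : T.pos w e1 0 = 0 := rfl
  have hrel' : ∀ g, T.Rel w e0 g ↔ ∃ i < n, g = (T.st w)^[T.pos w e1 i] e1 := by
    intro g
    rw [← hrel]
    exact ⟨fun h => T.rel_trans (T.rel_symm h1) h, fun h => T.rel_trans h1 h⟩
  have hlt : ∀ i < n, t0 + T.pos w e1 i < per T w o := by
    intro i hi
    by_contra hc
    push Not at hc
    have h3 : T.Rel w e0 ((T.st w)^[t0 + T.pos w e1 i] o) := by
      rw [← hit]; exact (hrel' _).2 ⟨i, hi, rfl⟩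
    have h4 : (T.st w)^[t0 + T.pos w e1 i] o = (T.st w)^[t0 + T.pos w e1 i - per T w o] o :=
      T.iter_sub w o hc
    rw [h4] at h3
    exact h2 _ (by have := hposlt i hi; omega) h3
  refine ⟨n, fun i => (T.st w)^[T.pos w e1 i] e1, fun i => t0 + T.pos w e1 i,
    ⟨hbo, ⟨hn, ?_, ?_, ?_, ?_, hinj, ?_, ?_⟩, ?_, hlt, ?_, ?_, ?_⟩, hrel'⟩
  · intro i hi
    exact ((hrel _).2 ⟨i, hi, rfl⟩).2.1
  · intro i _
    exact ⟨T.pos w e1 i, rfl⟩
  · intro i hi
    rcases hs i with h3 | h3
    · exact h3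
    · omega
  · rcases hs (n - 1) with h3 | h3
    · rw [Nat.sub_add_cancel hn, hpL] at h3
      change T.src ((T.st w)^[minimalPeriod (T.st w) e1] e1) = _ at h3
      rw [iterate_minimalPeriod] at h3
      change T.src ((T.st w)^[0] e1) = _
      exact h3
    · omega
  · intro k
    change π (T.src ((T.st w)^[k] e1)) = O ∧ π (T.tgt ((T.st w)^[k] e1)) = O
    rw [hit]; exact hseen _
  · intro e a1 a2
    obtain ⟨g, hg', h3⟩ := hring e a1 a2
    obtain ⟨i, hi, rfl⟩ := (hrel' g).1 hg'
    exact ⟨i, hi, h3⟩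
  · intro i _
    exact (hit _).symm
  · intro i j hij hj
    have := hmono i j hij hj.le
    omega
  · intro m hmL hr
    have h3 : T.Rel w e0 ((T.st w)^[m] o) := T.rel_trans h1 hr
    obtain ⟨i, hi, h4⟩ := (hrel' _).1 h3
    rw [hit] at h4
    exact ⟨i, hi, (inj_st hmL (hlt i hi) h4).symm⟩
  · intro i hi
    exact (hrel _).2 ⟨i, hi, rfl⟩

section loop

variable {w : V → Bool} {o : D} {n : ℕ} {c : ℕ → D} {t : ℕ → ℕ}

open Classical in
/-- The sum over the members between two indices, in time form. -/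
theorem Loop.sum {M : Type*} [AddCommMonoid M] (h : Loop T π O w o n c t) (Θ : D → M) {a b : ℕ}
    (hab : a ≤ b) (hb : b < n) : ∑ i ∈ Finset.Ico a b, Θ (c i) =
      ∑ m ∈ Finset.Ico (t a) (t b),
        if T.Rel w (c 0) ((T.st w)^[m] o) then Θ ((T.st w)^[m] o) else 0 := by
  have hle : ∀ i j, i ≤ j → j < n → t i ≤ t j := by
    intro i j hij hj
    rcases hij.lt_or_eq with h1 | h1
    · exact (h.mono i j h1 hj).le
    · rw [h1]
  induction b, hab using Nat.le_induction with
  | base => simp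
  | succ b hab ih =>
    have hbn : b < n := by omega
    rw [Finset.sum_Ico_succ_top hab, ih hbn,
      ← Finset.sum_Ico_consecutive _ (hle a b hab hbn) (hle b (b + 1) (by omega) hb)]
    congr 1
    have h1 := h.mono b (b + 1) (by omega) hb
    rw [Finset.sum_eq_single (t b)]
    · rw [h.hit b hbn, if_pos (h.mem b hbn)]
    · intro m hm hne
      rw [Finset.mem_Ico] at hm
      rw [if_neg]
      intro hr
      have h2 := h.lt (b + 1) hb
      obtain ⟨i, hi, him⟩ := h.all m (by omega) hr
      rcases lt_trichotomy i b with h3 | h3 | h3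
      · have := h.mono i b h3 hbn; omega
      · rw [h3] at him; exact hne him.symm
      · have := hle (b + 1) i (by omega) hi; omega
    · intro hh
      exfalso
      apply hh
      rw [Finset.mem_Ico]
      exact ⟨le_rfl, h1⟩

/-- Targets of the strand between two times are joined. -/
theorem right_joined {E : Set V} (hb : T.Bi w o) {a b : ℕ} (hab : a ≤ b)
    (hE : ∀ k, a ≤ k → k ≤ b → T.tgt ((T.st w)^[k] o) ∈ E) :
    Joined T w (w (T.tgt o)) E (T.tgt ((T.st w)^[a] o)) (T.tgt ((T.st w)^[b] o)) := by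
  induction b, hab using Nat.le_induction with
  | base => exact H838.Joined.refl (hE a le_rfl le_rfl) (T.col_tgt_iter w o a)
  | succ b hab ih =>
    have h1 := ih (fun k h1 h2 => hE k h1 (by omega))
    rcases right_adj hb b with h2 | ⟨g, h2, h3⟩
    · rw [h2]; exact h1
    · have h4 : Joined T w (w (T.tgt o)) E (T.tgt ((T.st w)^[b + 1] o))
          (T.tgt ((T.st w)^[b] o)) :=
        H838.Joined.cons h2 h3 (hE _ (by omega) le_rfl) (T.col_tgt_iter w o (b + 1))
          (H838.Joined.refl (hE _ (by omega) (by omega)) (T.col_tgt_iter w o b))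
      exact h1.trans h4.symm

/-- The vertices of the main cycle with times before `tb`. -/
def early (T : Tri V D) (w : V → Bool) (o e0 : D) (tb : ℕ) : Set V :=
  {v | ∃ m < tb, T.Rel w e0 ((T.st w)^[m] o) ∧ T.src ((T.st w)^[m] o) = v}

/-- The boundary darts with real tail in `P`. -/
def arcP (T : Tri V D) (T1 : Tri V1 D) (O : V1) (P : Set V) : Set D :=
  {e | OutD T1 O e ∧ T.src e ∈ P}

theorem Loop.exists_cut (h : Loop T π O w o n c t) {tb : ℕ} (htb : tb ≤ per T w o) :
    ∃ s ≤ n, (∀ i < n, i < s ↔ t i < tb) ∧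
      arc T T1 O c s = arcP T T1 O (early T w o (c 0) tb) := by
  classical
  have hex : ∃ s, s = n ∨ (s < n ∧ tb ≤ t s) := ⟨n, Or.inl rfl⟩
  set s := Nat.find hex with hs
  have h1 : s = n ∨ (s < n ∧ tb ≤ t s) := Nat.find_spec hex
  have h2 : ∀ i < s, ¬ (i = n ∨ (i < n ∧ tb ≤ t i)) := fun i hi => Nat.find_min hex hi
  have hsn : s ≤ n := by omega
  have hiff : ∀ i < n, i < s ↔ t i < tb := by
    intro i hi
    constructor
    · intro h3
      by_contra h4
      push Not at h4
      exact h2 i h3 (Or.inr ⟨hi, h4⟩)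
    · intro h3
      by_contra h4
      push Not at h4
      rcases h1 with h5 | ⟨h5, h6⟩
      · omega
      · rcases h4.lt_or_eq with h7 | h7
        · have := h.mono s i h7 hi; omega
        · rw [h7] at h6; omega
  refine ⟨s, hsn, hiff, ?_⟩
  ext e
  constructor
  · rintro ⟨h3, h4, i, hi, h5⟩
    have hin : i < n := by omega
    refine ⟨⟨h3, h4⟩, t i, (hiff i hin).1 hi, ?_, ?_⟩
    · rw [h.hit i hin]; exact h.mem i hin
    · rw [h.hit i hin, h5]
  · rintro ⟨⟨h3, h4⟩, m, hm, hr, h5⟩
    obtain ⟨i, hi, him⟩ := h.all m (by omega) hr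
    refine ⟨h3, h4, i, (hiff i hi).2 (by omega), ?_⟩
    rw [← h5, ← him, h.hit i hi]

open Classical in
/-- The index of a vertex of the cycle. -/
noncomputable def idx (T : Tri V D) (c : ℕ → D) (n : ℕ) (v : V) : ℕ :=
  if h : ∃ i < n, T.src (c i) = v then h.choose else 0

theorem idx_eq (hR : Ring T π O w c n) {i : ℕ} (hi : i < n) {v : V} (hv : v = T.src (c i)) :
    idx T c n v = i := by
  subst hv
  have h : ∃ j < n, T.src (c j) = T.src (c i) := ⟨i, hi, rfl⟩
  unfold idx
  rw [dif_pos h]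
  exact hR.inj _ h.choose_spec.1 _ hi h.choose_spec.2

/-- The closing chain. -/
noncomputable def clo (T : Tri V D) (c : ℕ → D) (n : ℕ) (d g : D) : List D :=
  chain c (idx T c n (T.apex g)) (idx T c n (T.src d))

variable {sec : V1 → V} {E arch : Set V} {ω τ : V → Bool} {d : D}

/-- **CLOSE, time form.** -/
theorem DoorGeo_ends [Finite D] (hG : DoorGeo T T1 π sec O E arch ω) (hL : Loop T π O w o n c t)
    {tb : ℕ} (htb : tb ≤ per T w o) (hs : T1.src d = O) (hd : Start T1 (s1 sec O τ) d)
    (hnl : ∀ f, T.src f = T.src d → T.tgt f ≠ T.src d)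
    (hF : Facing T1 (arcP T T1 O (early T w o (c 0) tb)) (s1 sec O τ) d)
    (hne : (arcP T T1 O (early T w o (c 0) tb)).Nonempty) :
    ∃ iy ix, iy ≤ ix ∧ ix < n ∧ tb ≤ t iy ∧ T.apex (lst T1 (s1 sec O τ) d) = T.src (c iy) ∧
      T.src d = T.src (c ix) ∧ clo T c n d (lst T1 (s1 sec O τ) d) = chain c iy ix := by
  obtain ⟨s, hsn, hiff, harc⟩ := hL.exists_cut (T1 := T1) htb
  rw [← harc] at hF hne
  have hg := lst_rel hG.planar1 hd
  have hgO : T1.apex (lst T1 (s1 sec O τ) d) = O := (lst_apex hG.planar1 hd).trans hs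
  obtain ⟨⟨ix, hix, hx⟩, h2⟩ := ends_on hG.planar1 hG.contr hG.inj hL.ring hd hs
  obtain ⟨iy, hiy, hy⟩ := h2 _ hg hgO
  have hsx : s ≤ ix := by
    by_contra hh
    exact tail_off hG.planar1 hG.contr hd hs hF (i := ix) (by omega) hx
  have hsy : s ≤ iy := by
    by_contra hh
    exact landing_off hG.planar1 hG.contr hG.inj hd hs hF hg hgO (i := iy) (by omega) hy
  obtain ⟨b, hb⟩ := hne
  obtain ⟨j, h3, h4, -⟩ := hF b hb
  obtain ⟨-, hbt, k, hk, hbk⟩ := hb
  rw [hs] at h3 h4
  have hord := order hG.planar hG.planar1 hG.contr hG.inj hL.ring hd hs hnl hg hgO hix hsx hx hiy hy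
    hk hbk hbt h3 h4
  refine ⟨iy, ix, hord, hix, ?_, hy, hx, ?_⟩
  · by_contra hh
    have := (hiff iy hiy).2 (by omega)
    omega
  · unfold clo
    rw [idx_eq hL.ring hiy hy, idx_eq hL.ring hix hx]

/-- **CLOSE, time form: the closing chain of helper400's door theorem.** -/
theorem closing [Finite D] (hG : DoorGeo T T1 π sec O E arch ω) (hL : Loop T π O w o n c t)
    {tb : ℕ} (htb : tb ≤ per T w o) (hcol : w (T.src o) = true)
    (hE : ∀ k, tb ≤ k → k ≤ per T w o → T.src ((T.st w)^[k] o) ∈ E ∧ T.tgt ((T.st w)^[k] o) ∈ E)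
    (hω : ∀ v ∈ E, ω v = w v)
    (harch : ∀ a ∈ arch, ∃ k, tb ≤ k ∧ k ≤ per T w o ∧ T.tgt ((T.st w)^[k] o) = a)
    (hs : T1.src d = O) (hd : Start T1 (s1 sec O τ) d)
    (hnl : ∀ f, T.src f = T.src d → T.tgt f ≠ T.src d)
    (hF : Facing T1 (arcP T T1 O (early T w o (c 0) tb)) (s1 sec O τ) d)
    (hne : (arcP T T1 O (early T w o (c 0) tb)).Nonempty) :
    Closing T E arch ω d (lst T1 (s1 sec O τ) d) (clo T c n d (lst T1 (s1 sec O τ) d)) := by
  obtain ⟨iy, ix, hyx, hix, hty, hy, hx, hclo⟩ := DoorGeo_ends hG hL htb hs hd hnl hF hne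
  rw [hclo]
  have hle : ∀ i j, i ≤ j → j < n → t i ≤ t j := by
    intro i j hij hj
    rcases hij.lt_or_eq with h1 | h1
    · exact (hL.mono i j h1 hj).le
    · rw [h1]
  have hcolt : w (T.tgt o) = false := by
    have := hL.bi
    unfold Tri.Bi at this
    rw [hcol] at this
    revert this
    generalize w (T.tgt o) = x
    cases x <;> simp
  have hfar : ∀ i, iy ≤ i → i ≤ ix → T.src (c i) ∈ E ∧ T.tgt (c i) ∈ E ∧ T.apex (c i) ∈ E ∧
      ω (T.src (c i)) = true ∧ ω (T.tgt (c i)) = false ∧ ω (T.apex (c i)) = true := by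
    intro i h1 h2
    have hin : i < n := by omega
    have h3 : tb ≤ t i := hty.trans (hle iy i h1 hin)
    have h4 := hL.lt i hin
    have h5 := hE (t i) h3 h4.le
    have h6 := hE (t i + 1) (by omega) (by omega)
    rw [iterate_succ', comp_apply, hL.hit i hin, T.src_st_mi (hL.ring.mi i hin)] at h6
    rw [hL.hit i hin] at h5
    have e1 : w (T.src (c i)) = true := by
      rw [← hL.hit i hin, T.col_src_iter w o, hcol]
    have e2 : w (T.tgt (c i)) = false := by
      rw [← hL.hit i hin, T.col_tgt_iter w o, hcolt]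
    refine ⟨h5.1, h5.2, h6.1, ?_, ?_, ?_⟩
    · rw [hω _ h5.1, e1]
    · rw [hω _ h5.2, e2]
    · rw [hω _ h6.1, (hL.ring.mi i hin).2, e1]
  have hjoin : ∀ k l, tb ≤ k → k ≤ per T w o → tb ≤ l → l ≤ per T w o →
      Joined T ω false E (T.tgt ((T.st w)^[k] o)) (T.tgt ((T.st w)^[l] o)) := by
    have key : ∀ k l, k ≤ l → tb ≤ k → l ≤ per T w o →
        Joined T ω false E (T.tgt ((T.st w)^[k] o)) (T.tgt ((T.st w)^[l] o)) := by
      intro k l hkl h1 h2
      have h3 := right_joined (E := E) hL.bi hkl (fun m h3 h4 => (hE m (by omega) (by omega)).2)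
      rw [hcolt] at h3
      exact h3.congr hω
    intro k l h1 h2 h3 h4
    rcases le_total k l with h5 | h5
    · exact key k l h5 h1 h4
    · exact (key l k h5 h3 h2).symm
  refine ⟨?_, ?_, ?_, ?_, ?_, ?_, ?_, ?_, ?_⟩
  · rw [hx]
    have := hfar ix hyx le_rfl
    exact ⟨this.1, this.2.2.2.1⟩
  · rw [hy]
    have := hfar iy le_rfl hyx
    exact ⟨this.1, this.2.2.2.1⟩
  · refine chain_range (R := fun a b => T.src b = T.apex a) ?_ ?_ ?_ ?_
    · intro h0
      rw [hx, hy, show ix = iy by omega]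
    · intro _; rw [hy]; rfl
    · intro i hi
      exact hL.ring.next (iy + i) (by omega)
    · intro hm
      have h1 := hL.ring.next (iy + (ix - iy - 1)) (by omega)
      rw [show iy + (ix - iy - 1) + 1 = ix by omega] at h1
      rw [hx]; exact h1
  · unfold chain
    rw [List.map_map, List.nodup_map_iff_inj_on List.nodup_range]
    intro i hi j hj hij
    rw [List.mem_range] at hi hj
    have := hL.ring.inj (iy + i) (by omega) (iy + j) (by omega) hij
    omega
  · intro hh
    rw [List.mem_map] at hh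
    obtain ⟨e, he, he2⟩ := hh
    obtain ⟨i, h1, h2, rfl⟩ := mem_chain.1 he
    rw [hx] at he2
    have := hL.ring.inj i (by omega) ix hix he2
    omega
  · intro e he
    obtain ⟨i, h1, h2, rfl⟩ := mem_chain.1 he
    have := hfar i h1 h2.le
    exact ⟨this.1, this.2.2.2.1⟩
  · intro e he
    obtain ⟨i, h1, h2, rfl⟩ := mem_chain.1 he
    have := hfar i h1 h2.le
    exact ⟨this.2.2.1, this.2.2.2.2.2⟩
  · intro e he
    obtain ⟨i, h1, h2, rfl⟩ := mem_chain.1 he
    have := hfar i h1 h2.le
    exact ⟨this.2.1, this.2.2.2.2.1⟩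
  · intro a ha e he
    obtain ⟨i, h1, h2, rfl⟩ := mem_chain.1 he
    obtain ⟨k, k1, k2, rfl⟩ := harch a ha
    have hin : i < n := by omega
    have := hjoin k (t i) k1 k2 (hty.trans (hle iy i h1 hin)) (hL.lt i hin).le
    rwa [hL.hit i hin] at this

end loop

end Vale.Agent.P148.R2.H659
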