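import Vale.Agent.P148.R2.H659.Close4
import Vale.Agent.P148.R2.H565.Mc
import Vale.Agent.P148.R2.H871.CW5

/-!
# The loop at every foot

helper871's separating class is the main class of the ring, and it gives the time form of the closing data
with any foot as base.
-/

namespace Vale.Agent.P148.R2.H659

open Function Vale.Agent.P148.R2.H258 Vale.Agent.P148.R2.H871 Vale.Agent.P148.R2.H565

variable {V V1 D : Type*} {T : Tri V D} {σ : V → Bool} {o : D} {K : ℕ} {t : ℕ → ℕ}

theorem feet_of_loopT' (h : LoopT T σ K o t) (h4 : 4 ≤ K) : Feet T σ o K t :=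
  ⟨h4, h.bi, h.zero, h.inc, h.per, h.adj⟩

/-- **helper871's class is the main class**, if `z` is joined to `ω` off any three consecutive
pieces. -/
theorem Main.of_sep [Finite D] (hF : Feet T σ o K t) {z ω : V} {e : D} (hm : T.Mi σ e)
    (he : ∃ n, (T.st σ)^[n] o = e)
    (hsep : ∀ l, T.Walk z ω l → ∃ g, T.Rel σ e g ∧ (T.src g = z ∨ ∃ f ∈ l, T.tgt f = T.src g))
    (hz : ∀ k, ∃ l, T.Walk z ω l ∧ ∀ i, t k ≤ i → i ≤ t (k + 3) →
      sa T σ o i ≠ z ∧ ∀ f ∈ l, sa T σ o i ≠ T.tgt f) : Main T σ o t e := by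
  obtain ⟨n0, hn0⟩ := he
  have h4 := hF.four
  set m := n0 + per T σ o with hmdef
  have hme : (T.st σ)^[m] o = e := by
    rw [hmdef, iterate_add_apply]
    have : (T.st σ)^[per T σ o] o = o := iterate_minimalPeriod
    rw [this, hn0]
  obtain ⟨k, h1, h2⟩ := hF.loc m
  have hk : 1 ≤ k := by
    by_contra hc
    have e1 : k = 0 := by omega
    subst e1
    have e2 := hF.add 0
    have e3 := hF.mono (show 0 + 1 ≤ 0 + K by omega)
    rw [hF.zero] at e2
    omega
  have hper := hF.mono (show k - 1 ≤ k by omega)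
  refine ⟨k, m, ⟨hk, h1, h2, by rw [hme]; exact hm, ?_⟩, by rw [hme]; exact T.rel_refl hm⟩
  intro i j a1 a2 a3 a4 a5
  obtain ⟨l, hl, hoff⟩ := hz (k - 1)
  obtain ⟨g, hr, hgf⟩ := hsep l hl
  rw [← hme] at hr
  obtain ⟨-, -, n, hn, hng, hD⟩ := hr
  change n < per T σ _ at hn
  rw [per_iter] at hn
  rw [show k - 1 + 3 = k + 2 by omega] at hoff
  have hg : sa T σ o (n + m) = T.src g := by
    unfold sa; rw [iterate_add_apply, hng]
  have hbad : ∀ i', t (k - 1) ≤ i' → i' ≤ t (k + 2) → sa T σ o i' = T.src g → False := by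
    intro i' b1 b2 b3
    obtain ⟨c1, c2⟩ := hoff i' b1 b2
    rcases hgf with h5 | ⟨f, hf, h5⟩
    · exact c1 (b3.trans h5)
    · exact c2 f hf (b3.trans h5.symm)
  by_cases hj : n + m < j
  · exact hbad (n + m) (by omega) (by omega) hg
  · by_cases hi : i + per T σ o ≤ n + m
    · refine hbad (n + m - per T σ o) (by omega) (by omega) ?_
      rw [← hg, ← sa_add_per T σ o (n + m - per T σ o), Nat.sub_add_cancel (by omega)]
    · refine hD (j - m) (i + per T σ o - m) (by omega) (by omega) (by omega)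
        (by change _ ≤ per T σ _; rw [per_iter]; omega) ?_
      change sa T σ _ _ = sa T σ _ _
      rw [sa_add, sa_add, show m + (j - m) = j by omega,
        show m + (i + per T σ o - m) = i + per T σ o by omega, sa_add_per]
      exact a5.symm

/-- The main class for another base foot. -/
theorem Main.shift [Finite D] (hF : Feet T σ o K t) {e : D} (hM : Main T σ o t e) (j : ℕ) :
    Main T σ ((T.st σ)^[t j] o) (fun k => t (j + k) - t j) e := by
  obtain ⟨k0, m0, hl, hr⟩ := hM
  have h4 := hF.four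
  have hk0 := hl.1
  have h1 := hF.lm_addn hl (j + 1)
  have e1 : j + 1 ≤ (j + 1) * K := Nat.le_mul_of_pos_right _ (by omega)
  have e2 : t j ≤ m0 + (j + 1) * per T σ o := by
    have a1 := h1.2.1
    have a2 := hF.mono (show j ≤ k0 + (j + 1) * K by omega)
    omega
  refine ⟨k0 + (j + 1) * K - j, m0 + (j + 1) * per T σ o - t j, ?_, ?_⟩
  · rw [hF.lm_shift j (by omega), show j + (k0 + (j + 1) * K - j) = k0 + (j + 1) * K by omega,
      show t j + (m0 + (j + 1) * per T σ o - t j) = m0 + (j + 1) * per T σ o by omega]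
    exact h1
  · rw [← iterate_add_apply, show m0 + (j + 1) * per T σ o - t j + t j = m0 + (j + 1) * per T σ o by
      omega, st_addn]
    exact hr

theorem Main.trans [Finite D] {e e' : D} (hM : Main T σ o t e) (h : T.Rel σ e e') : Main T σ o t e' := by
  obtain ⟨k, m, h1, h2⟩ := hM
  exact ⟨k, m, h1, T.rel_trans h2 h⟩

/-- Without loops the apex is not the source. -/
theorem apex_ne (hnl : ∀ f, T.src f ≠ T.tgt f) (e : D) : T.apex e ≠ T.src e := by
  have := hnl (T.nxt (T.nxt e))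
  rwa [T.src_nxt2, T.tgt_nxt2] at this

/-- All darts of a closed strand are iterates of each other. -/
theorem iter_back [Finite D] (a n : ℕ) : ∃ m, (T.st σ)^[m] ((T.st σ)^[a] o) = (T.st σ)^[n] o := by
  have hL := per_pos T σ o
  have h1 : a ≤ n + a * per T σ o := by
    have : a * 1 ≤ a * per T σ o := Nat.mul_le_mul_left a hL
    omega
  refine ⟨n + a * per T σ o - a, ?_⟩
  rw [← iterate_add_apply, Nat.sub_add_cancel h1, st_addn]

/-- **The loop at every foot.** -/
theorem exists_loop_foot [Finite D] (hP : T.Planar) (hnl : ∀ f, T.src f ≠ T.tgt f)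
    {π : V → V1} {O : V1} (hF : Feet T σ o K t) {e : D} (hm : T.Mi σ e)
    (he : ∃ n, (T.st σ)^[n] o = e)
    (hseen : ∀ k, π (T.src ((T.st σ)^[k] o)) = O ∧ π (T.tgt ((T.st σ)^[k] o)) = O)
    (hring : ∀ f, π (T.src f) = O → π (T.tgt f) ≠ O → ∃ g, T.Rel σ e g ∧ T.src f = T.src g)
    (hM : Main T σ o t e) (j : ℕ) :
    ∃ n c τ, Loop T π O σ ((T.st σ)^[t j] o) n c τ ∧
      Feet T σ ((T.st σ)^[t j] o) K (fun k => t (j + k) - t j) ∧
      Main T σ ((T.st σ)^[t j] o) (fun k => t (j + k) - t j) (c 0) ∧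
      ∀ g, T.Rel σ e g ↔ ∃ i < n, g = c i := by
  obtain ⟨n0, hn0⟩ := he
  obtain ⟨m0, hm0⟩ := iter_back (T := T) (σ := σ) (o := o) (t j) n0
  rw [hn0] at hm0
  obtain ⟨n, c, τ, hL, hrel⟩ := exists_loop (π := π) (O := O) hP (o := (T.st σ)^[t j] o)
    (m0 := m0) (by rw [hm0]; exact hm) (by rw [hm0]; exact apex_ne hnl e)
    (fun k => by rw [← iterate_add_apply]; exact hseen _) (by rw [hm0]; exact hring)
  rw [hm0] at hrel
  refine ⟨n, c, τ, hL, hF.shift j, (hM.shift hF j).trans ?_, hrel⟩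
  exact (hrel (c 0)).2 ⟨0, hL.ring.pos, rfl⟩

end Vale.Agent.P148.R2.H659
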