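import Vale.Agent.P148.R2.H659.RowVal1
import Vale.Agent.P148.R2.H565.Loc16
import Vale.Agent.P148.R2.H488.CellV
import Vale.Agent.P148.R2.H172.Asm

/-!
# Row val of the middle assembly
-/

open Set Metric Function Filter
open scoped ENNReal Classical

namespace Vale.Agent.P148.R2.H659

open Vale.Agent.P148.R2.H258 Vale.Agent.P148.R2.H871 Vale.Agent.P148.R2.H565
open Vale.Agent.P148.R2.H184 Vale.Agent.P148.R2.H203
open Vale.Agent.P148.R2.H592 (idmap fib_id tail head vc cr Fc HullTri)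
open Vale.Agent.P148.R2.N (ms nc gateC cellC csq ms_pos)
open Vale.Agent.P148.R2.H959 (reg)
open Vale.Agent.P148.R2.H488 (cw hc cw_ne hc_add_nc)
open Vale.Agent.P148.R2.H566 (W0 Asq Ev)
open Vale.Agent.P148.R2.H609 (TP piX)
open Vale.Agent.P148.R2.H172 (Frame blk sc fsc fsc_eq fscOf mc xb frm frm_can nA ga)
open Vale.Agent.P148.R2.H291 (SiteOK site bR)
open Vale.Agent.P148.R2.H678 (wd)
open _root_.P148 _root_.P148.H729

universe u

/-- The value of a cell is periodic. -/
theorem cellV_add_nc (M : ℕ) (X B : Set ℂ) (Θ : Dt → ℂ) (k : ℕ) :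
    cellV M X B Θ (k + nc M) = cellV M X B Θ k := by
  have h1 : gb M (k + nc M) = gb M k + nc M := by unfold gb; omega
  have hQ : ∀ m, Qw M (m + nc M) = Qw M m := by
    intro m
    unfold Qw
    rw [show m + nc M + 2 = m + 2 + nc M by omega, N.cellC_add_nc]
  have hF : ∀ Y B' m, FP M Y B' (m + nc M) = FP M Y B' m := by
    intro Y B' m
    have e5 : ∀ a, H565.Foot M Y B' (m + nc M + 5) a ↔ H565.Foot M Y B' (m + 5) a := by
      intro a
      rw [show m + nc M + 5 = m + 5 + nc M by omega, Foot_add_nc]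
    unfold FP
    simp only [Foot_add_nc, e5, hQ]
  unfold cellV Fv
  simp only [h1, hQ, hF]

section site

variable {M : ℕ} {T : Set Pt} {Θ : Dt → ℂ}

/-- **The full cells of a frame with the canonical feet are the values of the cells.** -/
theorem cellID_col (hS : SiteOK T 9 (ms M / 1000)) (hM : 2 ≤ M) {σ : site T 9 → Bool}
    {Bl₁ Wh₁ Bl₂ Wh₂ : Set ℂ}
    (hC : H419.Col M (site T 9) (bR 9) Bl₁ Wh₁ Bl₂ Wh₂ (H172.cs Subtype.val σ))
    (F : Frame M (wd hS.hull M σ) (xb hS.hull) σ) (hF : F.Can) : CellID F Θ := by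
  intro k hk
  have hM0 : 0 < M := by omega
  have hn : 12 ≤ nc M := by unfold nc; omega
  have hms := ms_pos hM0
  have hms1 : ms M ≤ 1 := Vale.Agent.P148.R2.N.ms_le_one
  have hX := H678.center_site hS
  have hcn := H678.ctr_nsup hX M
  have hcm := H678.ctr_mem hX
  have hcol : (fun v : site T 9 => H172.cs Subtype.val σ v.1) = σ := funext (H678.cs_val σ)
  have hfin : Finite (Fc (site T 9) (bR 9) × ZMod 3) := by
    have := hS.hull.finite_Fc
    infer_instance
  obtain ⟨κ, hκ⟩ : ∃ κ, κ = k % nc M + nc M := ⟨_, rfl⟩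
  have hmod : k % nc M = κ % nc M := by
    rw [hκ, Nat.add_mod_right, Nat.mod_mod]
  have e1 : cval M (wd hS.hull M σ) σ Θ (k % nc M) =
      cellV M (site T 9) (blk (w := wd hS.hull M σ) σ) (cw (hc M κ) Θ) κ := by
    unfold cval
    rw [hκ, cellV_add_nc, hc_add_nc]
    rfl
  have hcyc : (k - 2) % nc M = gb M κ % nc M := by
    unfold gb
    rw [show κ + (nc M - 2) = k % nc M + (nc M - 2) + nc M by omega, Nat.add_mod_right,
      Nat.mod_add_mod, show k + (nc M - 2) = k - 2 + nc M by omega, Nat.add_mod_right]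
  have hcyc5 : (k + 3) % nc M = (gb M κ + 5) % nc M := by
    rw [Nat.add_mod (gb M κ) 5, ← hcyc, ← Nat.add_mod, show k - 2 + 5 = k + 3 by omega]
  have hfoot : ∀ j l, j % nc M = l % nc M → H419.Foot hC.hull (xb hS.hull) M
      Bl₁ Wh₁ (H172.cs Subtype.val σ) l
      (((TP (wd hS.hull M σ) (xb hS.hull)).st σ)^[F.t j] F.o) := by
    intro j l hjl
    have h1 := H126.rf_foot hC (xb hS.hull) j
    rw [hcol] at h1
    rw [hF j, ← H419.Foot_mod, ← hjl, H419.Foot_mod]
    exact h1
  have hlt : F.t (k - 2) ≤ F.t (k + 3) := F.lt.mono (by omega)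
  have hper : F.t (k + 3) < F.t (k - 2) + per (TP (wd hS.hull M σ) (xb hS.hull)) σ F.o := by
    rw [← F.lt.per (k - 2)]
    exact F.lt.lt_iff.2 (by omega)
  have hN : NWin M κ (site T 9) :=
    ⟨H488.nAgree_site hM (by norm_num) hS (by linarith) (Or.inl rfl),
      H488.nAgree_site hM (by norm_num) hS (by linarith) (Or.inr rfl)⟩
  have hR : SmallR M (site T 9) (bR 9) (ms M / 1000 / 4) := by
    intro j q hq
    refine hS.lf ?_
    have h2 := (H959.reg_nsup hM0 hq).2
    have h3 := H291.norm_le_nsup (tail q)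
    rw [mem_closedBall_zero_iff]
    linarith
  have hB : ∀ z ∈ site T 9, (z ∈ blk (w := wd hS.hull M σ) σ ↔
      H172.cs Subtype.val σ z = true) := by
    intro z hz
    have h1 := H678.cs_val σ ⟨z, hz⟩
    constructor
    · rintro ⟨h2, h3⟩
      exact h1.trans h3
    · intro h2
      exact ⟨hz, h1.symm.trans h2⟩
  have hper2 : per (HT hC.hull (xb hS.hull)) σ (((TP (wd hS.hull M σ) (xb hS.hull)).st σ)^[F.t
      (k - 2)] F.o) = per (TP (wd hS.hull M σ) (xb hS.hull)) σ F.o :=
    per_iter (TP (wd hS.hull M σ) (xb hS.hull)) σ _ _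
  have hit := (iterate_add_apply ((TP (wd hS.hull M σ) (xb hS.hull)).st σ)
    (F.t (k + 3) - F.t (k - 2)) (F.t (k - 2)) F.o).symm
  rw [Nat.sub_add_cancel hlt] at hit
  have key := col_seg hC (B := blk (w := wd hS.hull M σ) σ) hB hcm.1 hcn hM (xb hS.hull)
    (κ := κ) (by omega) hN hR (by positivity) (by linarith) (Θ := Θ)
    (hfoot (k - 2) _ hcyc) (hfoot (k + 3) _ hcyc5)
    (n := F.t (k + 3) - F.t (k - 2)) (by
      rw [hcol, hper2]
      omega) (by
      rw [hcol]
      exact hit)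
  rw [hcol] at key
  rw [e1, ← key, H488.sideSum_wt0 hS rfl rfl (by norm_num) hM F]
  rw [hc_congr hmod]
  exact sideSum_eq_seg (T := TP (wd hS.hull M σ) (xb hS.hull)) (σ := σ) (o := F.o) hlt rfl _

theorem cellID (hS : SiteOK T 9 (ms M / 1000)) (hM : 2 ≤ M) (hM0 : 0 < M)
    {i : (site T 9 → Bool) × (site T 9 → Bool)} (hi : (fscOf hM0 hS.hull).p i ≠ 0)
    (F : Frame M (wd hS.hull M (mc M (site T 9) i)) (xb hS.hull) (mc M (site T 9) i))
    (hF : F.Can) : CellID F Θ := by
  let _ := H172.fX hS.hull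
  have hA := H172.fscOf_A0 hM0 hS.hull hi
  have hC := H678.col_site hS (by norm_num) hM0 hA
  exact cellID_col hS hM hC F hF

end site

/-- **Row val.** -/
theorem rowVal (Θ : Dt → ℂ) : H172.RowVal.{u} Θ := by
  intro N
  refine row_val_of ?_ N
  filter_upwards [eventually_ge_atTop 2] with M hM T hM0 hS i hi F hF
  exact cellID hS hM hM0 hi F (frm_can hF)

end Vale.Agent.P148.R2.H659
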