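import Vale.Agent.P148.R2.H400.Flip3

/-!
# Closing an excursion along the far side of an explored loop

`T` is the plane world, `T1` the contraction of everything outside the fresh region into the vertex `O`.
`c 0, …, c (n-1)` is the main cycle of the closed strand of `c 0` (colouring `w`), contained in the fibre
of `O`; every dart from the fibre of `O` to the fresh region starts on the cycle.  If an excursion from `O`
faces all the darts which start at `c i`, `i < s`, then its real tail and its real landing are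
`src (c ix)` and `src (c iy)` with `s ≤ iy ≤ ix < n`.
-/

namespace Vale.Agent.P148.R2.H659

open Function Vale.Agent.P148.R2.H258 Vale.Agent.P148.R2.H871 Vale.Agent.P148.R2.H838
  Vale.Agent.P148.R2.H400 Vale.Agent.P148.R2.H258.Tri

variable {V V1 D : Type*} {T : Tri V D} {T1 : Tri V1 D} {π : V → V1} {O : V1}

/-- The closed strand of `c 0` for `w` and its main cycle `c 0, …, c (n-1)`, in the fibre of `O`. -/
structure Ring (T : Tri V D) (π : V → V1) (O : V1) (w : V → Bool) (c : ℕ → D) (n : ℕ) : Prop where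
  pos : 0 < n
  mi : ∀ i < n, T.Mi w (c i)
  str : ∀ i < n, ∃ k, (T.st w)^[k] (c 0) = c i
  next : ∀ i, i + 1 < n → T.src (c (i + 1)) = T.apex (c i)
  close : T.src (c 0) = T.apex (c (n - 1))
  inj : ∀ i < n, ∀ j < n, T.src (c i) = T.src (c j) → i = j
  seen : ∀ k, π (T.src ((T.st w)^[k] (c 0))) = O ∧ π (T.tgt ((T.st w)^[k] (c 0))) = O
  ring : ∀ e, π (T.src e) = O → π (T.tgt e) ≠ O → ∃ i < n, T.src e = T.src (c i)

variable {w : V → Bool} {c : ℕ → D} {n : ℕ}

theorem Ring.fib (hR : Ring T π O w c n) {i : ℕ} (hi : i < n) :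
    π (T.src (c i)) = O ∧ π (T.tgt (c i)) = O ∧ π (T.apex (c i)) = O := by
  obtain ⟨k, hk⟩ := hR.str i hi
  have h1 := hR.seen k
  rw [hk] at h1
  refine ⟨h1.1, h1.2, ?_⟩
  have h2 := hR.seen (k + 1)
  rw [iterate_succ', comp_apply, hk, T.src_st_mi (hR.mi i hi)] at h2
  exact h2.1

/-- A face potential of a walk whose darts are monochromatic or leave the fibre of `O` is constant along
the strand. -/
theorem Ring.pot_const (hR : Ring T π O w c n) {Γ : List D} {N : D → ZMod 2} (hN : T.Pot Γ N)
    (hΓ : ∀ e ∈ Γ, w (T.src e) = w (T.tgt e) ∨ π (T.src e) ≠ O ∨ π (T.tgt e) ≠ O) (k : ℕ) :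
    N ((T.st w)^[k] (c 0)) = N (c 0) := by
  have hb0 : T.Bi w (c 0) := (hR.mi 0 hR.pos).bi
  induction k with
  | zero => rfl
  | succ k ih =>
    have hb : T.Bi w ((T.st w)^[k] (c 0)) := (T.bi_iter k).2 hb0
    have hb1 : T.Bi w ((T.st w)^[k + 1] (c 0)) := (T.bi_iter (k + 1)).2 hb0
    have hs := hR.seen (k + 1)
    have h3 := hN.2 ((T.st w)^[k + 1] (c 0)) (Or.inl (fun hh => hb1 (by rw [hh])))
    have h4 : N (T.rev ((T.st w)^[k + 1] (c 0))) = N ((T.st w)^[k] (c 0)) := by
      rw [iterate_succ', comp_apply]; exact T.face_st hN.1 hb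
    have hm : T.mu Γ ((T.st w)^[k + 1] (c 0)) = 0 := by
      apply T.mu_zero
      · intro hh
        rcases hΓ _ hh with h5 | h5 | h5
        · exact hb1 h5
        · exact h5 hs.1
        · exact h5 hs.2
      · intro hh
        rcases hΓ _ hh with h5 | h5 | h5
        · rw [T.src_rev, T.tgt_rev] at h5
          exact hb1 h5.symm
        · rw [T.src_rev] at h5; exact h5 hs.2
        · rw [T.tgt_rev] at h5; exact h5 hs.1
    rw [hm, h4, ih] at h3
    exact (zmod2_add_eq_zero h3).symm

theorem Ring.pot_eq (hR : Ring T π O w c n) {Γ : List D} {N : D → ZMod 2} (hN : T.Pot Γ N)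
    (hΓ : ∀ e ∈ Γ, w (T.src e) = w (T.tgt e) ∨ π (T.src e) ≠ O ∨ π (T.tgt e) ≠ O) {i : ℕ}
    (hi : i < n) : N (c i) = N (c 0) := by
  obtain ⟨k, hk⟩ := hR.str i hi
  rw [← hk]
  exact hR.pot_const hN hΓ k

theorem rot_inj {f g : D} (h : rot T f = rot T g) : f = g :=
  T.nxt_inj (T.nxt_inj (T.rev_inj h))

/-- Two jumps around a vertex separate the darts around it. -/
theorem rot_two [Finite D] {x : V} (hnl : ∀ f, T.src f = x → T.tgt f ≠ x) {N : D → ZMod 2}
    {d b : D} (hd : T.src d = x) (hb : T.src b = x) (hdb : d ≠ b)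
    (hstep : ∀ f, T.src f = x → f ≠ d → f ≠ b → N (rot T f) = N f)
    (hstep' : N (rot T b) = N b + 1) : N d = N b + 1 := by
  by_contra hne
  have hNd : N d = N b := by
    revert hne
    generalize N d = a
    generalize N b = e
    revert a e; decide
  have hb1 : ∀ a : ZMod 2, a ≠ a + 1 := by decide
  set S : Set D := {f | T.src f = x ∧ N f = N b + 1} with hS
  have hmaps : ∀ f ∈ S, rot T f ∈ S := by
    rintro f ⟨h1, h2⟩
    refine ⟨by rw [src_rot]; exact h1, ?_⟩
    rw [hstep f h1 ?_ ?_, h2]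
    · rintro rfl; rw [hNd] at h2; exact hb1 _ h2
    · rintro rfl; exact hb1 _ h2
  have hsurj : ∀ f ∈ S, ∃ g ∈ S, rot T g = f := by
    let φ : S → S := fun f => ⟨rot T f.1, hmaps f.1 f.2⟩
    have hφ : Injective φ := by
      intro f g hfg
      apply Subtype.ext
      exact rot_inj (congrArg Subtype.val hfg)
    have hφ' : Surjective φ := Finite.injective_iff_surjective.1 hφ
    intro f hf
    obtain ⟨g, hg⟩ := hφ' ⟨f, hf⟩
    exact ⟨g.1, g.2, congrArg Subtype.val hg⟩
  have key : ∀ f g : D, Relation.EqvGen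
      (fun f g => g = T.rev (T.nxt (T.nxt f)) ∨ (T.src f = T.src (T.rev f) ∧ g = T.rev f)) f g →
      (T.src f = T.src g ∧ (T.src f = x → (f ∈ S ↔ g ∈ S))) := by
    intro f g hfg
    induction hfg with
    | rel f g h =>
      rcases h with rfl | ⟨h, rfl⟩
      · refine ⟨(src_rot (T := T) f).symm, fun hf => ⟨fun h1 => hmaps f h1, fun h1 => ?_⟩⟩
        obtain ⟨g, hg, hgf⟩ := hsurj _ h1
        have : g = f := rot_inj hgf
        rw [← this]; exact hg
      · refine ⟨h, fun hf => ?_⟩
        exact absurd (by rw [← hf]; exact h.symm) (hnl f hf)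
    | refl f => exact ⟨rfl, fun _ => Iff.rfl⟩
    | symm f g _ ih => exact ⟨ih.1.symm, fun hf => (ih.2 (by rw [ih.1, hf])).symm⟩
    | trans f g k _ _ ih1 ih2 =>
      exact ⟨ih1.1.trans ih2.1, fun hf => (ih1.2 hf).trans (ih2.2 (by rw [← ih1.1, hf]))⟩
  have h1 : rot T b ∈ S := ⟨by rw [src_rot]; exact hb, hstep'⟩
  have h2 := (key (rot T b) b (T.link _ _ (src_rot b))).2 (by rw [src_rot]; exact hb)
  exact hb1 _ (h2.1 h1).2

/-! ### lists of majority edges -/

/-- The majority edge of a minority dart. -/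
theorem src_edge (f : D) : T.src (T.rev (T.nxt (T.nxt f))) = T.src f := src_rot f

theorem tgt_edge (f : D) : T.tgt (T.rev (T.nxt (T.nxt f))) = T.apex f := tgt_rot f

theorem path_walk {f : ℕ → D} {a m : ℕ}
    (hs : ∀ i, a ≤ i → i < a + m → T.src (f (i + 1)) = T.apex (f i)) :
    T.Walk (T.src (f a)) (T.src (f (a + m))) ((List.range m).map fun i => rot T (f (a + i))) := by
  have := T.cycle_walk (f := fun i => f (a + i)) (m := m) (fun i hi => by
    have := hs (a + i) (by omega) (by omega)
    rwa [add_assoc] at this)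
  exact this

open Classical in
theorem count_ite {l : List D} (hn : l.Nodup) (e : D) :
    ((l.count e : ℕ) : ZMod 2) = if e ∈ l then 1 else 0 := by
  split_ifs with h
  · rw [List.count_eq_one_of_mem hn h]; norm_num
  · rw [List.count_eq_zero_of_not_mem h]; norm_num

theorem mu_reverse (l : List D) (e : D) : T.mu ((l.map T.rev).reverse) e = T.mu l e := by
  classical
  have h : ∀ e : D, ((l.map T.rev).reverse).count e = l.count (T.rev e) := by
    intro e
    rw [List.count_reverse]
    have := List.count_map_of_injective l T.rev (fun a b => T.rev_inj) (T.rev e)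
    rwa [T.rev_rev] at this
  unfold mu
  rw [h, h, T.rev_rev, add_comm]

/-- Comparison of a potential of `T` with the potential of the excursion, along the tour of `O`. -/
theorem tour_compare [Finite D] (hC : Contr T T1 π) (hP1 : T1.Planar) {σ : V1 → Bool} {d : D}
    (hd : T1.Mi σ d) (hg : T1.apex d ≠ T1.src d) {Γ : List D} {N : D → ZMod 2} (hN : T.Pot Γ N)
    (hmu : ∀ e, T1.src e = T1.src d → T1.tgt e ≠ T1.src d → T.mu Γ e =
      ((open Classical in if T1.InG σ d e then (1 : ZMod 2) else 0) +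
        (open Classical in if T1.InG σ d (T1.rev e) then (1 : ZMod 2) else 0))) (j : ℕ) :
    N ((tour T1 (T1.src d))^[j] d) = N d + T1.pot σ d ((tour T1 (T1.src d))^[j] d) := by
  classical
  obtain ⟨h0, l, hpot, -, -, hnd, hmem⟩ := T1.pot_spec hP1 hd hg
  have hdO : OutD T1 (T1.src d) d := ⟨rfl, fun hh => hd.1 (by rw [hh])⟩
  have hN1 : ∀ e, N (T1.nxt e) = N e := fun e => by rw [hC.nxt]; exact hN.1 e
  induction j with
  | zero => rw [iterate_zero, id, h0, add_zero]
  | succ j ih =>
    have ho := tour_iter_out hdO j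
    set e := (tour T1 (T1.src d))^[j] d with he
    have hne : T.src e ≠ T.tgt e := by
      intro hh
      apply ho.2
      rw [hC.tgt, ← hh, ← hC.src]
      exact ho.1
    have hne1 : T1.src e ≠ T1.tgt e := by rw [ho.1]; exact ho.2.symm
    have h1 := hN.2 e (Or.inl hne)
    have h2 := hpot.2 e (Or.inl hne1)
    have hm : T1.mu (T1.rev (T1.nxt (T1.nxt d)) :: l) e = T.mu Γ e := by
      rw [hmu e ho.1 ho.2]
      unfold mu
      rw [count_ite (List.Nodup.of_map _ hnd), count_ite (List.Nodup.of_map _ hnd)]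
      simp only [hmem]
    rw [hm, ← h1] at h2
    rw [iterate_succ', comp_apply, ← he, face_tour hN1, face_tour hpot.1, hC.rev]
    rw [hC.rev] at h2
    rw [ih] at h2
    revert h2
    generalize N (T.rev e) = a1
    generalize T1.pot σ d (T.rev e) = a2
    generalize T1.pot σ d e = a3
    generalize N d = a4
    revert a1 a2 a3 a4; decide

section main

variable [Finite D] (hP : T.Planar) (hP1 : T1.Planar) (hC : Contr T T1 π) (hinj : InjOff π O)
  (hR : Ring T π O w c n) {σ : V1 → Bool} {d : D} (hd : Start T1 σ d) (hdO : T1.src d = O)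
include hP1 hC hinj hd hdO

/-- The members of the excursion, in the plane world. -/
theorem exc : ∃ (p : ℕ) (f : ℕ → D), 1 ≤ p ∧ f 0 = d ∧ (∀ g, T1.Rel σ d g ↔ ∃ i < p + 1, g = f i) ∧
    (∀ i < p, T.src (f (i + 1)) = T.apex (f i)) ∧ T1.apex (f p) = O ∧
    (∀ i < p + 1, ∀ j < p + 1, T.src (f i) = T.src (f j) → i = j) ∧
    (∀ i, 1 ≤ i → i < p + 1 → π (T.src (f i)) ≠ O) := by
  obtain ⟨m, f, hm, hf0, hfm, hs, hij, hrel, hnd⟩ := T1.class_cycle hP1 hd.1 hd.2
  obtain ⟨p, rfl⟩ : ∃ p, m = p + 1 := ⟨m - 1, by omega⟩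
  have hsne : ∀ i, 1 ≤ i → i < p + 1 → T1.src (f i) ≠ O := by
    intro i h1 h2 h3
    rw [← hdO, ← hf0] at h3
    have := hij i h2 0 (by omega) h3
    omega
  have hlast : T1.apex (f p) = O := by
    rw [← hs p (by omega), hfm, hdO]
  have hp : 1 ≤ p := by
    rcases Nat.eq_zero_or_pos p with h0 | h0
    · exfalso
      rw [h0, hf0] at hlast
      exact hd.2 (by rw [hlast, hdO])
    · exact h0
  refine ⟨p, f, hp, hf0, hrel, ?_, hlast, ?_, ?_⟩
  · intro i hi
    apply hinj
    · rw [← hC.src, ← hC.apex]; exact hs i (by omega)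
    · rw [← hC.src]; exact hsne (i + 1) (by omega) (by omega)
  · intro i hi j hj hij'
    exact hij i hi j hj (by rw [hC.src, hC.src, hij'])
  · intro i h1 h2
    rw [← hC.src]; exact hsne i h1 h2

include hP hR

/-- **The far side.**  If the real tail and the real landing of an excursion have indices `≥ s` on the cycle
and a dart with tail of index `< s` lies in the footprint, the landing comes before the tail. -/
theorem order {s ix iy : ℕ} (hnl : ∀ f, T.src f = T.src d → T.tgt f ≠ T.src d)
    {g : D} (hg : T1.Rel σ d g) (hgO : T1.apex g = O)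
    (hix : ix < n) (hsx : s ≤ ix) (hx : T.src d = T.src (c ix))
    (hiy : iy < n) (hy : T.apex g = T.src (c iy)) {b : D} {j k : ℕ}
    (hk : k < s) (hbk : T.src b = T.src (c k)) (hbt : T1.tgt b ≠ O)
    (hbj : b = (tour T1 O)^[j] d) (hb0 : T1.pot σ d ((tour T1 O)^[j + 1] d) = 0) :
    iy ≤ ix := by
  classical
  by_contra hlt
  push Not at hlt
  obtain ⟨p, f, hp, hf0, hrel, hTs, hlast, hfin, hfne⟩ := exc hP1 hC hinj hd hdO
  -- the last member is `f p`
  have hgp : g = f p := by
    obtain ⟨i, hi, rfl⟩ := (hrel g).1 hg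
    rcases Nat.lt_or_ge i p with h1 | h1
    · exfalso
      have h2 := hTs i h1
      have h3 := hfne (i + 1) (by omega) (by omega)
      apply h3
      rw [h2, ← hC.apex]; exact hgO
    · have : i = p := by omega
      rw [this]
  have hkn : k < n := by omega
  -- the closed walk
  set Kl : List D := (List.range (p + 1)).map fun i => rot T (f i) with hKl
  set Al : List D := (List.range (iy - ix)).map fun i => rot T (c (ix + i)) with hAl
  set Γ : List D := Kl ++ (Al.map T.rev).reverse with hΓ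
  have hKw : T.Walk (T.src d) (T.src (c iy)) Kl := by
    have h1 : Kl = ((List.range p).map fun i => rot T (f (0 + i))) ++ [rot T (f p)] := by
      rw [hKl, List.range_succ, List.map_append]
      simp
    rw [h1]
    have h2 := path_walk (T := T) (f := f) (a := 0) (m := p) (fun i _ hi => hTs i (by omega))
    rw [hf0, zero_add] at h2
    refine h2.append ?_
    have h3 := Walk.single (T := T) (rot T (f p))
    rw [src_rot, tgt_rot, ← hgp, hy, hgp] at h3
    exact h3
  have hAw : T.Walk (T.src (c ix)) (T.src (c iy)) Al := by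
    have h2 := path_walk (T := T) (f := c) (a := ix) (m := iy - ix)
      (fun i _ hi => hR.next i (by omega))
    rwa [show ix + (iy - ix) = iy by omega] at h2
  have hΓw : T.Walk (T.src d) (T.src d) Γ := by
    have := hKw.append hAw.reverse
    rwa [← hx] at this
  obtain ⟨N, hN, -⟩ := T.exists_pot hP hΓw d
  -- members of the lists
  have hmK : ∀ e, e ∈ Kl ↔ ∃ i < p + 1, e = rot T (f i) := by
    intro e
    rw [hKl, List.mem_map]
    constructor
    · rintro ⟨i, hi, rfl⟩; exact ⟨i, List.mem_range.1 hi, rfl⟩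
    · rintro ⟨i, hi, rfl⟩; exact ⟨i, List.mem_range.2 hi, rfl⟩
  have hmA : ∀ e, e ∈ Al ↔ ∃ i, ix ≤ i ∧ i < iy ∧ e = rot T (c i) := by
    intro e
    rw [hAl, List.mem_map]
    constructor
    · rintro ⟨i, hi, rfl⟩
      rw [List.mem_range] at hi
      exact ⟨ix + i, by omega, by omega, rfl⟩
    · rintro ⟨i, h1, h2, rfl⟩
      refine ⟨i - ix, List.mem_range.2 (by omega), ?_⟩
      rw [show ix + (i - ix) = i by omega]
  have hKn : Kl.Nodup := by
    rw [hKl, List.nodup_map_iff_inj_on List.nodup_range]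
    intro i hi j hj hij
    rw [List.mem_range] at hi hj
    exact hfin i hi j hj (by rw [← src_rot (T := T) (f i), hij, src_rot])
  have hAn : Al.Nodup := by
    rw [hAl, List.nodup_map_iff_inj_on List.nodup_range]
    intro i hi j hj hij
    rw [List.mem_range] at hi hj
    have := hR.inj (ix + i) (by omega) (ix + j) (by omega)
      (by rw [← src_rot (T := T) (c (ix + i)), hij, src_rot])
    omega
  have hmuΓ : ∀ e, T.mu Γ e = (if e ∈ Kl then (1 : ZMod 2) else 0) +
      (if T.rev e ∈ Kl then (1 : ZMod 2) else 0) + ((if e ∈ Al then (1 : ZMod 2) else 0) +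
      (if T.rev e ∈ Al then (1 : ZMod 2) else 0)) := by
    intro e
    rw [hΓ, T.mu_append, mu_reverse]
    unfold mu
    rw [count_ite hKn, count_ite hKn, count_ite hAn, count_ite hAn]
  -- fibres
  have hAO : ∀ e ∈ Al, π (T.src e) = O ∧ π (T.tgt e) = O := by
    intro e he
    obtain ⟨i, h1, h2, rfl⟩ := (hmA e).1 he
    rw [src_rot, tgt_rot]
    have := hR.fib (i := i) (by omega)
    exact ⟨this.1, this.2.2⟩
  have hKO : ∀ e ∈ Kl, π (T.src e) ≠ O ∨ π (T.tgt e) ≠ O := by
    intro e he
    obtain ⟨i, h1, rfl⟩ := (hmK e).1 he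
    rw [src_rot, tgt_rot]
    rcases Nat.eq_zero_or_pos i with h0 | h0
    · right
      rw [h0, hf0, ← hC.apex, ← hdO]; exact hd.2
    · left; exact hfne i h0 h1
  -- constancy along the strand
  have hcross : ∀ e ∈ Γ, w (T.src e) = w (T.tgt e) ∨ π (T.src e) ≠ O ∨ π (T.tgt e) ≠ O := by
    intro e he
    rw [hΓ, List.mem_append] at he
    rcases he with he | he
    · exact Or.inr (hKO e he)
    · left
      rw [List.mem_reverse, List.mem_map] at he
      obtain ⟨e', he', rfl⟩ := he
      obtain ⟨i, h1, h2, rfl⟩ := (hmA e').1 he'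
      rw [T.src_rev, T.tgt_rev, src_rot, tgt_rot]
      exact (hR.mi i (by omega)).2
  have hcx : N (c ix) = N (c k) := by
    rw [hR.pot_eq hN hcross hix, hR.pot_eq hN hcross hkn]
  -- the vertex `src (c k)` is off the walk
  have hoff : ∀ e ∈ Γ, T.src e ≠ T.src (c k) := by
    intro e he hh
    rw [hΓ, List.mem_append] at he
    rcases he with he | he
    · obtain ⟨i, h1, rfl⟩ := (hmK e).1 he
      rw [src_rot] at hh
      rcases Nat.eq_zero_or_pos i with h0 | h0
      · rw [h0, hf0, hx] at hh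
        have := hR.inj ix hix k hkn hh
        omega
      · exact hfne i h0 h1 (by rw [hh]; exact (hR.fib hkn).1)
    · rw [List.mem_reverse, List.mem_map] at he
      obtain ⟨e', he', rfl⟩ := he
      obtain ⟨i, h1, h2, rfl⟩ := (hmA e').1 he'
      rw [T.src_rev, tgt_rot, ← hR.next i (by omega)] at hh
      have := hR.inj (i + 1) (by omega) k hkn hh
      omega
  have hbN : N b = N (c k) := T.const_at hΓw hN.1 hN.2 hbk (fun e he => by rw [hbk]; exact hoff e he)
  -- comparison
  have hcmp : N ((tour T1 (T1.src d))^[j + 1] d) = N d + T1.pot σ d ((tour T1 (T1.src d))^[j + 1] d) := by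
    refine tour_compare hC hP1 hd.1 hd.2 hN ?_ (j + 1)
    intro e he1 he2
    rw [hdO] at he1 he2
    have hz1 : e ∉ Al := fun hh => he2 (by rw [hC.tgt]; exact (hAO e hh).2)
    have hz2 : T.rev e ∉ Al := by
      intro hh
      apply he2
      rw [hC.tgt]
      have := (hAO _ hh).1
      rwa [T.src_rev] at this
    have hInG : ∀ e, T1.InG σ d e ↔ e ∈ Kl := by
      intro e
      rw [hmK]
      constructor
      · rintro ⟨g', hg', rfl⟩
        obtain ⟨i, hi, rfl⟩ := (hrel g').1 hg'
        exact ⟨i, hi, by rw [hC.rev, hC.nxt, hC.nxt]; rfl⟩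
      · rintro ⟨i, hi, rfl⟩
        exact ⟨f i, (hrel _).2 ⟨i, hi, rfl⟩, by rw [hC.rev, hC.nxt, hC.nxt]; rfl⟩
    rw [hmuΓ, if_neg hz1, if_neg hz2, hC.rev]
    simp only [hInG, add_zero]
  have hbT : N (T.rev b) = N b := by
    have hne : T.src b ≠ T.tgt b := by
      intro hh
      apply hbt
      rw [hC.tgt, ← hh, hbk]
      exact (hR.fib hkn).1
    have h1 := hN.2 b (Or.inl hne)
    rw [T.mu_zero] at h1
    · exact zmod2_add_eq_zero h1
    · intro hh; exact hoff b hh hbk
    · intro hh
      obtain ⟨e', he', h'⟩ := hΓw.tgt_mem_closed _ hh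
      rw [T.tgt_rev, hbk] at h'
      exact hoff e' he' h'
  have hND : N d = N (c k) := by
    rw [hdO, hb0, add_zero, iterate_succ', comp_apply, ← hbj] at hcmp
    have hft := face_tour (T := T1) (N := N) (fun e => by rw [hC.nxt]; exact hN.1 e) O b
    rw [← hcmp, hft, hC.rev, hbT, hbN]
  -- rotation at the tail
  have hxc : d ≠ c ix := by
    intro hh
    apply hd.2
    rw [hC.apex, hh, (hR.fib hix).2.2, ← hh, hdO]
  have hmurot : ∀ f', T.src f' = T.src d → T.mu Γ (rot T f') =
      (if f' = d then (1 : ZMod 2) else 0) + (if f' = c ix then (1 : ZMod 2) else 0) := by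
    intro f' hf'
    have e1 : rot T f' ∈ Kl ↔ f' = d := by
      rw [hmK]
      constructor
      · rintro ⟨i, hi, h1⟩
        have h2 := rot_inj h1
        rcases Nat.eq_zero_or_pos i with h0 | h0
        · rw [h2, h0, hf0]
        · exfalso
          apply hfne i h0 hi
          rw [← h2, hf', ← hC.src, hdO]
      · rintro rfl
        exact ⟨0, by omega, by rw [hf0]⟩
    have e2 : T.rev (rot T f') ∉ Kl := by
      rw [hmK]
      rintro ⟨i, hi, h1⟩
      have h2 := congrArg T.tgt h1
      rw [T.tgt_rev, src_rot, tgt_rot, hf'] at h2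
      rcases Nat.lt_or_ge i p with h3 | h3
      · apply hfne (i + 1) (by omega) (by omega)
        rw [hTs i h3, ← h2, ← hC.src, hdO]
      · have h4 : i = p := by omega
        rw [h4, ← hgp, hy, hx] at h2
        have := hR.inj ix hix iy hiy h2
        omega
    have e3 : rot T f' ∈ Al ↔ f' = c ix := by
      rw [hmA]
      constructor
      · rintro ⟨i, h1, h2, h3⟩
        have h4 := rot_inj h3
        have h5 := hf'
        rw [h4, hx] at h5
        have := hR.inj i (by omega) ix hix h5
        rw [h4, this]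
      · rintro rfl
        exact ⟨ix, le_rfl, hlt, rfl⟩
    have e4 : T.rev (rot T f') ∉ Al := by
      rw [hmA]
      rintro ⟨i, h1, h2, h3⟩
      have h4 := congrArg T.tgt h3
      rw [T.tgt_rev, src_rot, tgt_rot, hf', hx, ← hR.next i (by omega)] at h4
      have := hR.inj ix hix (i + 1) (by omega) h4
      omega
    rw [hmuΓ, if_neg e2, if_neg e4]
    simp only [e1, e3, add_zero]
  have hrotN : ∀ f', T.src f' = T.src d → N (rot T f') + N f' = T.mu Γ (rot T f') := by
    intro f' hf'
    have hne : T.src (rot T f') ≠ T.tgt (rot T f') := by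
      intro hh
      rw [src_rot, tgt_rot] at hh
      have := hnl (rot T f') (by rw [src_rot]; exact hf')
      rw [tgt_rot, ← hh, hf'] at this
      exact this rfl
    have h1 := hN.2 (rot T f') (Or.inl hne)
    rwa [rev_rot, hN.1, hN.1] at h1
  have key := rot_two (T := T) (x := T.src d) hnl (N := N) (d := d) (b := c ix) rfl hx.symm hxc
    (by
      intro f' h1 h2 h3
      have h4 := hrotN f' h1
      rw [hmurot f' h1, if_neg h2, if_neg h3, add_zero] at h4
      exact (zmod2_add_eq_zero h4).symm)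
    (by
      have h4 := hrotN (c ix) hx.symm
      rw [hmurot _ hx.symm, if_neg (Ne.symm hxc), if_pos rfl, zero_add] at h4
      revert h4
      generalize N (rot T (c ix)) = a1
      generalize N (c ix) = a2
      revert a1 a2; decide)
  rw [hND, hcx] at key
  revert key
  generalize N (c k) = a
  revert a; decide

end main

/-- The darts from `O` to the fresh region whose real tail has index `< s` on the cycle. -/
def arc (T : Tri V D) (T1 : Tri V1 D) (O : V1) (c : ℕ → D) (s : ℕ) : Set D :=
  {e | T1.src e = O ∧ T1.tgt e ≠ O ∧ ∃ i < s, T.src e = T.src (c i)}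

section main2

variable [Finite D] (hP : T.Planar) (hP1 : T1.Planar) (hC : Contr T T1 π) (hinj : InjOff π O)
  (hR : Ring T π O w c n) {σ : V1 → Bool} {d : D} (hd : Start T1 σ d) (hdO : T1.src d = O)
include hP1 hC hd hdO

/-- If the arc is faced by the excursion then its real tail is not in the arc. -/
theorem tail_off {s : ℕ} (hF : Facing T1 (arc T T1 O c s) σ d) {i : ℕ} (hi : i < s) :
    T.src d ≠ T.src (c i) := by
  intro hx
  have htO : T1.tgt d ≠ O := by
    intro hh; exact hd.1.1 (by rw [hh, hdO])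
  have haO : T1.apex d ≠ O := by rw [← hdO]; exact hd.2
  have hmem : T1.rev (T1.nxt (T1.nxt d)) ∈ arc T T1 O c s := by
    refine ⟨by rw [T1.src_rev, T1.tgt_nxt2]; exact hdO, by rw [T1.tgt_rev]; exact haO, i, hi, ?_⟩
    rw [← hx, hC.rev, hC.nxt, hC.nxt, T.src_rev, T.tgt_nxt2]
  obtain ⟨j, h1, -, h3⟩ := hF _ hmem
  apply h3
  rw [iterate_succ', comp_apply, ← h1, hdO, tour_neg, T1.rev_rev, T1.nxt3]
  rw [T1.rev_rev, T1.apex_nxt2]; exact htO

include hinj

/-- The real landing vertex is on the cycle, and not in the arc if the arc is faced. -/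
theorem landing_off {s : ℕ} (hF : Facing T1 (arc T T1 O c s) σ d) {g : D} (hg : T1.Rel σ d g)
    (hgO : T1.apex g = O) {i : ℕ} (hi : i < s) : T.apex g ≠ T.src (c i) := by
  intro hy
  obtain ⟨p, f, hp, hf0, hrel, hTs, hlast, hfin, hfne⟩ := exc hP1 hC hinj hd hdO
  have hgp : g = f p := by
    obtain ⟨i, hi, rfl⟩ := (hrel g).1 hg
    rcases Nat.lt_or_ge i p with h1 | h1
    · exfalso
      have h2 := hTs i h1
      have h3 := hfne (i + 1) (by omega) (by omega)
      apply h3
      rw [h2, ← hC.apex]; exact hgO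
    · have : i = p := by omega
      rw [this]
  have hgs : T1.src g ≠ O := by
    rw [hgp, hC.src]; exact hfne p hp (by omega)
  set b := T1.nxt (T1.nxt g) with hb
  have hbs : T1.src b = O := hgO
  have hbt : T1.tgt b ≠ O := by rw [hb, T1.tgt_nxt2]; exact hgs
  have hmem : b ∈ arc T T1 O c s := by
    refine ⟨hbs, hbt, i, hi, ?_⟩
    rw [← hy, hb, hC.nxt, hC.nxt]
    rfl
  obtain ⟨j, h1, h2, h3⟩ := hF b hmem
  by_cases hIn : T1.InG σ d b
  · obtain ⟨g', hg', hbg⟩ := hIn
    obtain ⟨i', hi', rfl⟩ := (hrel g').1 hg'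
    have h4 : T1.src b = T1.src (f i') := by rw [hbg, T1.src_rev, T1.tgt_nxt2]
    rcases Nat.eq_zero_or_pos i' with h0 | h0
    · apply h3
      rw [h0, hf0] at hbg
      have htO : T1.tgt d ≠ O := by
        intro hh; exact hd.1.1 (by rw [hh, hdO])
      rw [iterate_succ', comp_apply, ← h1, hdO, hbg, tour_neg, T1.rev_rev, T1.nxt3]
      rw [T1.rev_rev, T1.apex_nxt2]; exact htO
    · apply hfne i' h0 hi'
      rw [← hC.src, ← h4]; exact hbs
  · have hrb : T1.rev b = T1.rev (T1.nxt (T1.nxt g)) := rfl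
    have h5 := T1.pot_rev_one hP1 hd.1 hd.2 (e := T1.rev b)
      (by rw [T1.src_rev, T1.tgt_rev, hbs]; exact hbt)
      ⟨g, hg, hrb⟩ (by rw [T1.rev_rev]; exact hIn)
    rw [T1.rev_rev] at h5
    have h6 : T1.pot σ d b = 0 := by
      rw [hb, T1.pot_nxt hP1 hd.1 hd.2, T1.pot_nxt hP1 hd.1 hd.2, T1.pot_member hP1 hd.1 hd.2 hg]
    have h7 := face_tour (T := T1) (N := T1.pot σ d) (T1.pot_nxt hP1 hd.1 hd.2) (T1.src d) b
    rw [iterate_succ', comp_apply, ← h1, h7] at h2
    rw [h6, h2, zero_add] at h5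
    exact absurd h5 (by decide)

include hR

/-- The real tail and the real landing are on the cycle. -/
theorem ends_on : (∃ ix < n, T.src d = T.src (c ix)) ∧
    ∀ g, T1.Rel σ d g → T1.apex g = O → ∃ iy < n, T.apex g = T.src (c iy) := by
  constructor
  · apply hR.ring
    · rw [← hC.src]; exact hdO
    · rw [← hC.tgt]
      intro hh; exact hd.1.1 (by rw [hh, hdO])
  · intro g hg hgO
    obtain ⟨p, f, hp, hf0, hrel, hTs, hlast, hfin, hfne⟩ := exc hP1 hC hinj hd hdO
    have hgp : g = f p := by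
      obtain ⟨i, hi, rfl⟩ := (hrel g).1 hg
      rcases Nat.lt_or_ge i p with h1 | h1
      · exfalso
        have h2 := hTs i h1
        have h3 := hfne (i + 1) (by omega) (by omega)
        apply h3
        rw [h2, ← hC.apex]; exact hgO
      · have : i = p := by omega
        rw [this]
    have h1 := hR.ring (T.nxt (T.nxt g)) (by
      change π (T.apex g) = O
      rw [← hC.apex]; exact hgO) (by
      rw [T.tgt_nxt2, hgp]; exact hfne p hp (by omega))
    exact h1

include hP

/-- **CLOSE.**  An excursion which faces the arc `{i < s}` has its real tail `src (c ix)` and its real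
landing `src (c iy)` on the far side, `s ≤ iy ≤ ix < n`. -/
theorem close {s : ℕ} (hnl : ∀ f, T.src f = T.src d → T.tgt f ≠ T.src d)
    (hF : Facing T1 (arc T T1 O c s) σ d) (hne : (arc T T1 O c s).Nonempty) :
    ∃ g iy ix, T1.Rel σ d g ∧ T1.apex g = O ∧ s ≤ iy ∧ iy ≤ ix ∧ ix < n ∧
      T.apex g = T.src (c iy) ∧ T.src d = T.src (c ix) := by
  obtain ⟨p, f, hp, hf0, hrel, hTs, hlast, hfin, hfne⟩ := exc hP1 hC hinj hd hdO
  have hg : T1.Rel σ d (f p) := (hrel _).2 ⟨p, by omega, rfl⟩
  obtain ⟨⟨ix, hix, hx⟩, h2⟩ := ends_on hP1 hC hinj hR hd hdO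
  obtain ⟨iy, hiy, hy⟩ := h2 _ hg hlast
  have hsx : s ≤ ix := by
    by_contra hh
    exact tail_off hP1 hC hd hdO hF (i := ix) (by omega) hx
  have hsy : s ≤ iy := by
    by_contra hh
    exact landing_off hP1 hC hinj hd hdO hF hg hlast (i := iy) (by omega) hy
  obtain ⟨b, hb⟩ := hne
  obtain ⟨j, h3, h4, -⟩ := hF b hb
  obtain ⟨-, hbt, k, hk, hbk⟩ := hb
  rw [hdO] at h3 h4
  exact ⟨f p, iy, ix, hg, hlast, hsy,
    order hP hP1 hC hinj hR hd hdO hnl hg hlast hix hsx hx hiy hy hk hbk hbt h3 h4, hix, hy, hx⟩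

end main2

/-- The closing chain. -/
def chain (c : ℕ → D) (a b : ℕ) : List D := (List.range (b - a)).map fun i => c (a + i)

theorem mem_chain {a b : ℕ} {e : D} : e ∈ chain c a b ↔ ∃ i, a ≤ i ∧ i < b ∧ e = c i := by
  unfold chain
  rw [List.mem_map]
  constructor
  · rintro ⟨i, hi, rfl⟩
    rw [List.mem_range] at hi
    exact ⟨a + i, by omega, by omega, rfl⟩
  · rintro ⟨i, h1, h2, rfl⟩
    exact ⟨i - a, List.mem_range.2 (by omega), by rw [show a + (i - a) = i by omega]⟩

theorem sum_chain {M : Type*} [AddCommMonoid M] (Θ : D → M) (a b : ℕ) :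
    ((chain c a b).map Θ).sum = ∑ i ∈ Finset.Ico a b, Θ (c i) := by
  unfold chain
  rw [List.map_map, Finset.sum_Ico_eq_sum_range]
  induction b - a with
  | zero => simp
  | succ m ih => rw [List.range_succ, List.map_append, List.sum_append, ih, Finset.sum_range_succ]; simp

theorem chain_range {R : D → D → Prop} {f : ℕ → D} {m : ℕ} {a b : D} (h0 : m = 0 → R a b)
    (h1 : 0 < m → R a (f 0)) (h2 : ∀ i, i + 1 < m → R (f i) (f (i + 1)))
    (h3 : 0 < m → R (f (m - 1)) b) : List.IsChain R (a :: (List.range m).map f ++ [b]) := by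
  induction m generalizing b with
  | zero => simpa using h0 rfl
  | succ m ih =>
    rw [List.range_succ, List.map_append, ← List.cons_append, List.append_assoc]
    have h4 : List.IsChain R (a :: (List.range m).map f ++ [f m]) := by
      refine ih ?_ ?_ (fun i hi => h2 i (by omega)) ?_
      · intro h; subst h; exact h1 (by omega)
      · intro _; exact h1 (by omega)
      · intro hm
        have := h2 (m - 1) (by omega)
        rwa [Nat.sub_add_cancel hm] at this
    rw [← List.append_assoc, List.isChain_append]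
    refine ⟨h4, by simp, ?_⟩
    intro x hx y hy
    simp only [List.map_cons, List.map_nil, List.getLast?_append, List.getLast?_singleton,
      Option.some_or, Option.mem_def, Option.some.injEq, List.head?_cons] at hx hy
    rw [← hx, ← hy]
    exact h3 (by omega)

/-- **CLOSE, captured form.** -/
theorem captured (hinj : InjOff π O) (hR : Ring T π O w c n) {σ : V1 → Bool}
    {d g : D} (hd : Start T1 σ d) (hdO : T1.src d = O) {s iy ix : ℕ} (hg : T1.Rel σ d g)
    (hgO : T1.apex g = O) (hsy : s ≤ iy) (hyx : iy ≤ ix) (hix : ix < n)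
    (hy : T.apex g = T.src (c iy)) (hx : T.src d = T.src (c ix)) {τ : V → Bool}
    (hτ : ∀ v, π v ≠ O → τ v = σ (π v)) (hmi : ∀ i, s ≤ i → i < n → T.Mi τ (c i))
    (hcol : ∀ i, s ≤ i → i < n → τ (T.src (c i)) = σ O)
    (hwalk : ∀ i, iy ≤ i → i < ix → ∃ l, T.Walk (T.tgt d) (T.tgt (c i)) l ∧
      ∀ e ∈ l, τ (T.src e) = τ (T.tgt d) ∧ τ (T.tgt e) = τ (T.tgt d)) :
    Captured T T1 π O σ τ d g (chain c iy ix) where
  inj := hinj
  col := hτ
  mem := hg
  src := hdO
  apex := by rw [← hdO]; exact hd.2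
  apex_last := hgO
  colx := by rw [hx]; exact hcol ix (by omega) hix
  coly := by rw [hy]; exact hcol iy hsy (by omega)
  mi := by
    intro e he
    obtain ⟨i, h1, h2, rfl⟩ := mem_chain.1 he
    exact hmi i (by omega) (by omega)
  fib := by
    intro e he
    obtain ⟨i, h1, h2, rfl⟩ := mem_chain.1 he
    exact (hR.fib (i := i) (by omega)).1
  nodup := by
    unfold chain
    rw [List.map_map, List.nodup_map_iff_inj_on List.nodup_range]
    intro i hi j hj hij
    rw [List.mem_range] at hi hj
    have := hR.inj (iy + i) (by omega) (iy + j) (by omega) hij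
    omega
  notmem := by
    intro hh
    rw [List.mem_map] at hh
    obtain ⟨e, he, he2⟩ := hh
    obtain ⟨i, h1, h2, rfl⟩ := mem_chain.1 he
    rw [hx] at he2
    have := hR.inj i (by omega) ix hix he2
    omega
  chain := by
    unfold H659.chain
    refine chain_range (R := fun a b => T.src b = T.apex a) ?_ ?_ ?_ ?_
    · intro h0
      rw [hx, hy, show ix = iy by omega]
    · intro _; rw [hy]; rfl
    · intro i hi
      exact hR.next (iy + i) (by omega)
    · intro hm
      have h1 := hR.next (iy + (ix - iy - 1)) (by omega)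
      rw [show iy + (ix - iy - 1) + 1 = ix by omega] at h1
      rw [hx]; exact h1
  walk := by
    intro e he
    obtain ⟨i, h1, h2, rfl⟩ := mem_chain.1 he
    exact hwalk i h1 h2

/-- The main cycle from a class. -/
theorem exists_ring [Finite D] (hP : T.Planar) {w : V → Bool} {o : D} (ho : T.Mi w o)
    (hno : T.apex o ≠ T.src o)
    (hseen : ∀ k, π (T.src ((T.st w)^[k] o)) = O ∧ π (T.tgt ((T.st w)^[k] o)) = O)
    (hring : ∀ e, π (T.src e) = O → π (T.tgt e) ≠ O → ∃ g, T.Rel w o g ∧ T.src e = T.src g) :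
    ∃ n c, Ring T π O w c n ∧ c 0 = o ∧ ∀ g, T.Rel w o g ↔ ∃ i < n, g = c i := by
  obtain ⟨m, f, hm, hf0, hfm, hs, hij, hrel, hnd⟩ := T.class_cycle hP ho hno
  refine ⟨m, f, ?_, hf0, hrel⟩
  refine ⟨hm, ?_, ?_, ?_, ?_, hij, ?_, ?_⟩
  · intro i hi
    exact ((hrel (f i)).2 ⟨i, hi, rfl⟩).2.1
  · intro i hi
    obtain ⟨-, -, k, -, h1, -⟩ := (hrel (f i)).2 ⟨i, hi, rfl⟩
    exact ⟨k, by rw [hf0]; exact h1⟩
  · intro i hi; exact hs i (by omega)
  · have := hs (m - 1) (by omega)
    rw [Nat.sub_add_cancel hm, hfm] at this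
    rw [hf0]; exact this
  · rw [hf0]; exact hseen
  · intro e h1 h2
    obtain ⟨g, hg, h3⟩ := hring e h1 h2
    obtain ⟨i, hi, rfl⟩ := (hrel g).1 hg
    exact ⟨i, hi, h3⟩

end Vale.Agent.P148.R2.H659
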