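import Vale.Agent.P148.R2.H659.Close6
import Vale.Agent.P148.R2.H565.Loc12
import Vale.Agent.P148.R2.H959.Reg

/-!
# The centre is joined to the hull off any four consecutive tubes of the comb ring
-/

namespace Vale.Agent.P148.R2.H659

open Function Vale.Agent.P148.R2.H258 Vale.Agent.P148.R2.H871 Vale.Agent.P148.R2.H565
open Vale.Agent.P148.R2.N (ms nc cellC csq ms_pos)
open Vale.Agent.P148.R2.H959 (reg Jn escape reg_subset_window nsup_I_pow_mul)
open Vale.Agent.P148.R2.H592 (HullTri)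
open Vale.Agent.P148.R2.H995 (nsup)

theorem ms_le_eighth {M : ℕ} (hM : 8 ≤ M) : ms M ≤ 1 / 8 := by
  unfold ms
  have h1 : (8 : ℝ) ≤ M := by exact_mod_cast hM
  rw [div_le_div_iff₀ (by linarith) (by norm_num)]
  linarith

/-- The cell centres are on the circle `nsup = 1 + a / 2`. -/
theorem nsup_cellC {M : ℕ} (hM : 0 < M) (k : ℕ) : nsup (cellC M k) = 1 + ms M / 2 := by
  have h0 := ms_pos hM
  have h1 := N.mod_mul_le hM k
  unfold cellC
  rw [nsup_I_pow_mul]
  unfold nsup
  simp only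
  have h2 : (0 : ℝ) ≤ ((k % (2 * M + 1) : ℕ) : ℝ) * ms M := by positivity
  rw [abs_of_pos (show (0 : ℝ) < 1 + ms M / 2 by linarith), max_eq_left]
  rw [abs_le]
  constructor <;> linarith

theorem nsup_of_csq {z w : ℂ} {r : ℝ} (h : w ∈ csq z r) : nsup z < nsup w + r ∧ nsup w < nsup z + r := by
  obtain ⟨h1, h2⟩ := h
  rw [abs_lt] at h1 h2
  unfold nsup
  constructor
  · rw [max_lt_iff]
    constructor
    · have : |z.re| < |w.re| + r := by
        rcases abs_cases z.re with h | h <;> rcases abs_cases w.re with h' | h' <;> linarith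
      exact this.trans_le (by gcongr; exact le_max_left _ _)
    · have : |z.im| < |w.im| + r := by
        rcases abs_cases z.im with h | h <;> rcases abs_cases w.im with h' | h' <;> linarith
      exact this.trans_le (by gcongr; exact le_max_right _ _)
  · rw [max_lt_iff]
    constructor
    · have : |w.re| < |z.re| + r := by
        rcases abs_cases z.re with h | h <;> rcases abs_cases w.re with h' | h' <;> linarith
      exact this.trans_le (by gcongr; exact le_max_left _ _)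
    · have : |w.im| < |z.im| + r := by
        rcases abs_cases z.im with h | h <;> rcases abs_cases w.im with h' | h' <;> linarith
      exact this.trans_le (by gcongr; exact le_max_right _ _)

/-- **The walk off four consecutive tubes.** -/
theorem hz_comb {M : ℕ} (hM : 8 ≤ M) {X : Set ℂ} {b : ZMod 3 → ℂ} (h : HullTri X b) (x₀ : X)
    (hb : ∀ j, 3 / 2 ≤ nsup (b j)) {z : X} (hz : nsup z.1 ≤ 1 / 2) {o : H592.Fc X b × ZMod 3}
    {σ : X → Bool} {t : ℕ → ℕ}
    (seen : ∀ k i, t k ≤ i → i < t (k + 1) →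
      (HT h x₀).src (((HT h x₀).st σ)^[i] o) ∈ (vs (reg M k) : Set X))
    (hmono : ∀ k, t k < t (k + 1)) (k : ℕ) :
    ∃ l, (HT h x₀).Walk z ⟨b 0, h.mem 0⟩ l ∧ ∀ i, t k ≤ i → i ≤ t (k + 3) →
      sa (HT h x₀) σ o i ≠ z ∧ ∀ f ∈ l, sa (HT h x₀) σ o i ≠ (HT h x₀).tgt f := by
  have hM0 : 0 < M := by omega
  have h0 := ms_pos hM0
  have h8 := ms_le_eighth hM
  have hc := nsup_cellC hM0 (k + 1)
  set C := csq (cellC M (k + 1)) (5 * ms M / 8 + (2 : ℕ) * ms M) with hC
  have hlow : ∀ w ∈ C, 1 / 2 < nsup w ∧ nsup w < 3 / 2 := by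
    intro w hw
    obtain ⟨h1, h2⟩ := nsup_of_csq hw
    rw [hc] at h1 h2
    push_cast at h1 h2
    constructor <;> linarith
  have hzC : z.1 ∉ C := fun hh => by have := (hlow _ hh).1; linarith
  have hbC : ∀ j, b j ∉ C := fun j hh => by have := (hlow _ hh).2; linarith [hb j]
  obtain ⟨l, hl, hl2⟩ := HT_walk h x₀ (x := z) (y := ⟨b 0, h.mem 0⟩)
    (escape h (convex_csq _ _) (H565.isOpen_csq _ _) hbC z.2 hzC)
  refine ⟨l, hl, ?_⟩
  have hin : ∀ i, t k ≤ i → i ≤ t (k + 3) → (sa (HT h x₀) σ o i).1 ∈ C := by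
    intro i h1 h2
    have hsm : StrictMono t := strictMono_nat_of_lt_succ hmono
    have hex : ∃ j, k ≤ j ∧ j ≤ k + 3 ∧ t j ≤ i ∧ i < t (j + 1) := by
      rcases Nat.lt_or_ge i (t (k + 1)) with h3 | h3
      · exact ⟨k, le_rfl, by omega, h1, h3⟩
      rcases Nat.lt_or_ge i (t (k + 2)) with h4 | h4
      · exact ⟨k + 1, by omega, by omega, h3, h4⟩
      rcases Nat.lt_or_ge i (t (k + 3)) with h5 | h5
      · exact ⟨k + 2, by omega, by omega, h4, h5⟩
      · exact ⟨k + 3, by omega, le_rfl, h5, lt_of_le_of_lt h2 (hmono (k + 3))⟩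
    obtain ⟨j, h3, h4, h5, h6⟩ := hex
    have h7 := seen j i h5 h6
    exact reg_subset_window hM0 (n := 2) (show k + 1 ≤ j + 2 by omega) (show j ≤ k + 1 + 2 by omega)
      h7
  intro i h1 h2
  have h3 := hin i h1 h2
  refine ⟨fun hh => hzC (hh ▸ h3), fun f hf hh => ?_⟩
  exact (hl2 f hf).2.2 (hh ▸ h3)

end Vale.Agent.P148.R2.H659
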