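import Vale.Agent.P148.R2.H258.A7

/-!
# Converse of `class_cycle`

A simple closed cycle of minority darts (sources distinct, the apex of each dart is the source of
the next one) all of whose minority vertices lie in one monochromatic cluster is exactly one class.
-/

namespace Vale.Agent.P148.R2.H258

open Function

namespace Tri

variable {V D : Type*} (T : Tri V D)

theorem rev_inj {a b : D} (h : T.rev a = T.rev b) : a = b := by
  rw [← T.rev_rev a, h, T.rev_rev]

theorem nxt_inj {a b : D} (h : T.nxt a = T.nxt b) : a = b := by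
  rw [← T.nxt3 a, h, T.nxt3]

/-- A face potential of a closed walk is constant along a walk avoiding the closed walk. -/
theorem pot_walk {u : V} {l : List D} (hw : T.Walk u u l) {N : D → ZMod 2} (hN : T.Pot l N)
    {v w : V} {q : List D} (hq : T.Walk v w q) (hv : ∀ f ∈ l, T.src f ≠ v)
    (hav : ∀ e ∈ q, ∀ f ∈ l, T.src f ≠ T.tgt e) {a b : D} (ha : T.src a = v) (hb : T.src b = w) :
    N a = N b := by
  induction hq generalizing a b with
  | nil v => exact T.const_at hw hN.1 hN.2 (by rw [ha, hb]) (by rw [ha]; exact hv)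
  | cons e w q _ ih =>
    have h1 : N a = N e := T.const_at hw hN.1 hN.2 ha (by rw [ha]; exact hv)
    have hte : ∀ f ∈ l, T.src f ≠ T.tgt e := hav e (by simp)
    have hm : T.mu l e = 0 := by
      apply T.mu_zero
      · intro hh; exact hv e hh rfl
      · intro hh; exact hte _ hh (T.src_rev e)
    have h2 : N e + N (T.rev e) = 0 := by
      rw [← hm]
      exact hN.2 e (Or.inr hv)
    have h3 : N (T.rev e) = N e := zmod2_add_eq_zero h2
    have h4 : N (T.rev e) = N b :=
      ih hte (fun e' he' => hav e' (List.mem_cons_of_mem _ he')) (T.src_rev e) hb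
    rw [h1, ← h3, h4]

/-- The cycle of majority edges of a cyclic sequence of minority darts. -/
theorem cycle_walk {m : ℕ} {f : ℕ → D} (hs : ∀ i < m, T.src (f (i + 1)) = T.apex (f i)) :
    T.Walk (T.src (f 0)) (T.src (f m)) ((List.range m).map fun i => T.rev (T.nxt (T.nxt (f i)))) := by
  induction m with
  | zero => exact Walk.nil _
  | succ m ih =>
    rw [List.range_succ, List.map_append]
    refine (ih (fun i hi => hs i (by omega))).append ?_
    have h2 := Walk.single (T := T) (T.rev (T.nxt (T.nxt (f m))))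
    rw [T.src_rev, T.tgt_nxt2, T.tgt_rev, src_nxt2, ← hs m (by omega)] at h2
    exact h2

/-- **Converse of `class_cycle`.** -/
theorem cycle_class [Finite D] (hP : T.Planar) {σ : V → Bool} {m : ℕ} {f : ℕ → D}
    (hm : 1 ≤ m) (hfm : f m = f 0) (hmi : ∀ i < m, T.Mi σ (f i))
    (hs : ∀ i < m, T.src (f (i + 1)) = T.apex (f i))
    (hinj : ∀ i < m, ∀ k < m, T.src (f i) = T.src (f k) → i = k)
    (hnd : T.apex (f 0) ≠ T.src (f 0))
    (hw : ∀ i < m, ∃ l, T.Walk (T.tgt (f 0)) (T.tgt (f i)) l ∧
      ∀ e ∈ l, σ (T.src e) = σ (T.tgt (f 0)) ∧ σ (T.tgt e) = σ (T.tgt (f 0))) (g : D) :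
    T.Rel σ (f 0) g ↔ ∃ i < m, g = f i := by
  have := Fintype.ofFinite D
  classical
  set d := f 0 with hd
  have hm2 : 2 ≤ m := by
    rcases Nat.lt_or_ge m 2 with hlt | hge
    · exfalso
      have h1 : m = 1 := by omega
      have h2 := hs 0 (by omega)
      rw [zero_add, ← h1, hfm, hd] at h2
      exact hnd (by rw [hd]; exact h2.symm)
    · exact hge
  have hdm : T.Mi σ d := hmi 0 (by omega)
  -- colours of the sources
  have hcol : ∀ i ≤ m, σ (T.src (f i)) = σ (T.src d) := by
    intro i
    induction i with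
    | zero => intro _; rfl
    | succ i ih =>
      intro hi
      rw [hs i (by omega), (hmi i (by omega)).2, ih (by omega)]
  have hap : ∀ i < m, T.apex (f i) ≠ T.src (f i) := by
    intro i hi h1
    rw [← hs i hi] at h1
    by_cases h2 : i + 1 < m
    · have := hinj (i + 1) h2 i hi h1
      omega
    · have h3 : i + 1 = m := by omega
      rw [h3, hfm] at h1
      have := hinj 0 (by omega) i hi h1
      omega
  -- the walk
  set γ : ℕ → D := fun i => T.rev (T.nxt (T.nxt (f i))) with hγ
  have hsrc : ∀ i, T.src (γ i) = T.src (f i) := by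
    intro i; simp only [hγ]; rw [T.src_rev, T.tgt_nxt2]
  have htgt : ∀ i, T.tgt (γ i) = T.apex (f i) := by
    intro i; simp only [hγ]; rw [T.tgt_rev, src_nxt2]
  obtain ⟨p, rfl⟩ : ∃ p, m = p + 1 := ⟨m - 1, by omega⟩
  have hlist : (List.range (p + 1)).map γ = γ 0 :: (List.range p).map (fun i => γ (1 + i)) := by
    rw [List.range_succ_eq_map, List.map_cons, List.map_map]
    congr 1
    apply List.map_congr_left
    intro i _
    simp only [comp_apply, Nat.succ_eq_add_one, add_comm]
  have hγ0 : γ 0 = T.rev (T.nxt (T.nxt d)) := rfl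
  set l := (List.range p).map (fun i => γ (1 + i)) with hl
  have hwalk : T.Walk (T.src d) (T.src d) (T.rev (T.nxt (T.nxt d)) :: l) := by
    rw [← hγ0, ← hlist]
    have := T.cycle_walk hs
    rwa [hfm] at this
  have hmemΓ : ∀ e, e ∈ T.rev (T.nxt (T.nxt d)) :: l ↔ ∃ i < p + 1, e = γ i := by
    intro e
    rw [← hγ0, ← hlist, List.mem_map]
    constructor
    · rintro ⟨i, hi, rfl⟩
      exact ⟨i, List.mem_range.1 hi, rfl⟩
    · rintro ⟨i, hi, rfl⟩
      exact ⟨i, List.mem_range.2 hi, rfl⟩
  have hn : ((T.rev (T.nxt (T.nxt d)) :: l).map T.src).Nodup := by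
    rw [← hγ0, ← hlist, List.map_map]
    rw [List.nodup_map_iff_inj_on List.nodup_range]
    intro i hi k hk hik
    rw [List.mem_range] at hi hk
    simp only [comp_apply, hsrc] at hik
    exact hinj i hi k hk hik
  have hc : ∀ e ∈ T.rev (T.nxt (T.nxt d)) :: l, σ (T.src e) = σ (T.src d) ∧
      σ (T.tgt e) = σ (T.src d) := by
    intro e he
    obtain ⟨i, hi, rfl⟩ := (hmemΓ e).1 he
    rw [hsrc, htgt, (hmi i hi).2]
    exact ⟨hcol i hi.le, hcol i hi.le⟩
  have hloop : ∀ e ∈ T.rev (T.nxt (T.nxt d)) :: l, T.src e ≠ T.tgt e := by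
    intro e he
    obtain ⟨i, hi, rfl⟩ := (hmemΓ e).1 he
    rw [hsrc, htgt]
    exact (hap i hi).symm
  obtain ⟨N', hN, hN0⟩ := T.exists_pot hP hwalk d
  have hNK := T.NK_of_mem hP hdm hnd hwalk hn hc hN hN0 hloop
  -- the potential of the class vanishes at all darts of the cycle
  have hpot : ∀ i < p + 1, T.pot σ d (f i) = 0 := by
    intro i hi
    obtain ⟨h0, l1, h1, h2, -, -, h5⟩ := T.pot_spec hP hdm hnd
    obtain ⟨q, hq1, hq2⟩ := hw i hi
    have hdif : ∀ v, σ v = σ (T.tgt d) → ∀ e ∈ T.rev (T.nxt (T.nxt d)) :: l1, T.src e ≠ v := by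
      intro v hv e he h6
      have h7 := (T.inG_col ((h5 e).1 he)).1
      rw [h6, hv] at h7
      exact hdm.1 h7.symm
    have h8 := T.pot_walk h2 h1 hq1 (hdif _ rfl)
      (fun e he e' he' => hdif _ (hq2 e he).2 e' he') (a := T.nxt d) (b := T.nxt (f i))
      (by rw [src_nxt']) (by rw [src_nxt'])
    rw [h1.1, h1.1, h0] at h8
    exact h8.symm
  -- every dart of the cycle is a member
  have hrel : ∀ i < p + 1, T.Rel σ d (f i) := by
    intro i hi
    have h1 := hNK (γ i) ((hmemΓ _).2 ⟨i, hi, rfl⟩)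
    have hne : T.src (γ i) ≠ T.tgt (γ i) := hloop _ ((hmemΓ _).2 ⟨i, hi, rfl⟩)
    have hre : T.rev (γ i) = T.nxt (T.nxt (f i)) := by simp only [hγ]; rw [T.rev_rev]
    have hp0 : T.pot σ d (T.rev (γ i)) = 0 := by
      rw [hre, T.pot_nxt hP hdm hnd, T.pot_nxt hP hdm hnd, hpot i hi]
    have hin : T.InG σ d (γ i) := by
      by_contra hnot
      unfold NK at h1
      by_cases h2 : T.InG σ d (T.rev (γ i))
      · have hne' : T.src (T.rev (γ i)) ≠ T.tgt (T.rev (γ i)) := by
          rw [T.src_rev (γ i), T.tgt_rev (γ i)]; exact hne.symm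
        have h3 := T.pot_rev_one hP hdm hnd (e := T.rev (γ i)) hne' h2
          (by rw [T.rev_rev (γ i)]; exact hnot)
        rw [T.rev_rev (γ i), hp0, zero_add] at h3
        obtain ⟨g', hg', hge⟩ := h2
        have h4 := T.pot_member hP hdm hnd hg'
        have h5 : γ i = T.nxt (T.nxt g') := T.rev_inj hge
        rw [h5, T.pot_nxt hP hdm hnd, T.pot_nxt hP hdm hnd, h4] at h3
        exact absurd h3 (by decide)
      · rw [if_neg] at h1
        · exact zero_ne_one h1
        · rintro (h3 | h3 | ⟨-, h3⟩)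
          · exact hnot h3
          · exact h2 h3
          · rw [hp0] at h3; exact absurd h3 (by decide)
    obtain ⟨g', hg', hge⟩ := hin
    have h6 : f i = g' := T.nxt_inj (T.nxt_inj (T.rev_inj hge))
    rw [h6]; exact hg'
  -- comparison with the cycle of the class
  obtain ⟨m', f', hm', h0', hfm', hs', hinj', hrel', -⟩ := T.class_cycle hP hdm hnd
  have hrelm : ∀ i ≤ p + 1, T.Rel σ d (f i) := by
    intro i hi
    rcases Nat.lt_or_ge i (p + 1) with h1 | h1
    · exact hrel i h1
    · have h2 : i = p + 1 := by omega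
      rw [h2, hfm]; exact T.rel_refl hdm
  have hrelm' : ∀ i ≤ m', T.Rel σ d (f' i) := by
    intro i hi
    rcases Nat.lt_or_ge i m' with h1 | h1
    · exact (hrel' _).2 ⟨i, h1, rfl⟩
    · have h2 : i = m' := by omega
      rw [h2, hfm']; exact T.rel_refl hdm
  have huniq : ∀ a b, T.Rel σ d a → T.Rel σ d b → T.src a = T.src b → a = b := by
    intro a b ha hb hab
    obtain ⟨i, hi, rfl⟩ := (hrel' a).1 ha
    obtain ⟨k, hk, rfl⟩ := (hrel' b).1 hb
    rw [hinj' i hi k hk hab]
  have hsame : ∀ i, i ≤ p + 1 → i ≤ m' → f' i = f i := by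
    intro i
    induction i with
    | zero => intro _ _; rw [h0']
    | succ i ih =>
      intro h1 h2
      have h3 := ih (by omega) (by omega)
      apply huniq _ _ (hrelm' _ h2) (hrelm _ h1)
      rw [hs' i (by omega), hs i (by omega), h3]
  have hmm : m' = p + 1 := by
    rcases lt_trichotomy m' (p + 1) with h1 | h1 | h1
    · exfalso
      have h2 := hsame m' h1.le le_rfl
      rw [hfm'] at h2
      have := hinj m' h1 0 (by omega) (by rw [← h2])
      omega
    · exact h1
    · exfalso
      have h2 := hsame (p + 1) le_rfl h1.le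
      rw [hfm, ← h0'] at h2
      have := hinj' (p + 1) h1 0 (by omega) (by rw [h2])
      omega
  constructor
  · intro h1
    obtain ⟨i, hi, rfl⟩ := (hrel' g).1 h1
    exact ⟨i, by omega, hsame i (by omega) hi.le⟩
  · rintro ⟨i, hi, rfl⟩
    exact hrel i hi

/-- List form of `cycle_class`: `L` is the list of the darts of the cycle, in cyclic order. -/
theorem list_class [Finite D] (hP : T.Planar) {σ : V → Bool} {d : D} {L : List D}
    (hch : List.IsChain (fun a b => T.src b = T.apex a) (d :: L ++ [d]))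
    (hmi : ∀ e ∈ d :: L, T.Mi σ e) (hn : ((d :: L).map T.src).Nodup)
    (hnd : T.apex d ≠ T.src d)
    (hw : ∀ e ∈ d :: L, ∃ l, T.Walk (T.tgt d) (T.tgt e) l ∧
      ∀ e' ∈ l, σ (T.src e') = σ (T.tgt d) ∧ σ (T.tgt e') = σ (T.tgt d)) (g : D) :
    T.Rel σ d g ↔ g ∈ d :: L := by
  classical
  set f : ℕ → D := fun i => (d :: L ++ [d]).getD i d with hf
  have hlen : (d :: L ++ [d]).length = L.length + 1 + 1 := by simp
  have hfi : ∀ i (hi : i < L.length + 1 + 1), f i = (d :: L ++ [d])[i]'(by rw [hlen]; exact hi) := by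
    intro i hi
    simp only [hf]
    rw [List.getD_eq_getElem]
  have hfl : ∀ i (hi : i < L.length + 1), f i = (d :: L)[i]'(by simpa using hi) := by
    intro i hi
    rw [hfi i (by omega)]
    exact List.getElem_append_left (by simpa using hi)
  have hf0 : f 0 = d := by rw [hfl 0 (by omega)]; rfl
  have hfm : f (L.length + 1) = d := by
    rw [hfi _ (by omega), List.getElem_append_right (by simp)]
    simp
  have key := T.cycle_class hP (σ := σ) (m := L.length + 1) (f := f) (by omega)
    (by rw [hfm, hf0]) ?_ ?_ ?_ (by rw [hf0]; exact hnd) ?_ g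
  · rw [hf0] at key
    rw [key]
    constructor
    · rintro ⟨i, hi, rfl⟩
      rw [hfl i hi]
      exact List.getElem_mem _
    · intro hg
      obtain ⟨i, hi, rfl⟩ := List.getElem_of_mem hg
      exact ⟨i, by simpa using hi, (hfl i (by simpa using hi)).symm⟩
  · intro i hi
    rw [hfl i hi]
    exact hmi _ (List.getElem_mem _)
  · intro i hi
    rw [hfi i (by omega), hfi (i + 1) (by omega)]
    exact List.isChain_iff_getElem.1 hch i (by rw [hlen]; omega)
  · intro i hi k hk hik
    rw [hfl i hi, hfl k hk] at hik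
    have h1 := List.inj_on_of_nodup_map hn (List.getElem_mem _) (List.getElem_mem _) hik
    have h2 : (d :: L).Nodup := List.Nodup.of_map _ hn
    exact (List.Nodup.getElem_inj_iff h2).1 h1
  · intro i hi
    rw [hfl i hi, hf0]
    exact hw _ (List.getElem_mem _)

end Tri

end Vale.Agent.P148.R2.H258
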