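import Vale.Agent.P148.R2.H659.ValF

/-!
# Row val of the middle assembly, from the identification of the cells
-/

open Set Metric Function Filter
open scoped ENNReal Classical

namespace Vale.Agent.P148.R2.H659

open Vale.Agent.P148.R2.H258 Vale.Agent.P148.R2.H871 Vale.Agent.P148.R2.H565
open Vale.Agent.P148.R2.H184 Vale.Agent.P148.R2.H203
open Vale.Agent.P148.R2.H592 (idmap fib_id tail head vc cr Fc HullTri)
open Vale.Agent.P148.R2.N (ms nc gateC cellC csq ms_pos)
open Vale.Agent.P148.R2.H959 (reg)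
open Vale.Agent.P148.R2.H488 (cw hc cw_ne)
open Vale.Agent.P148.R2.H504 (arcSum)
open Vale.Agent.P148.R2.H598 (mxs le_mxs)
open Vale.Agent.P148.R2.H566 (W0 Asq Ev)
open Vale.Agent.P148.R2.H609 (TP piX)
open Vale.Agent.P148.R2.H400 (hvl clH lst Start Facing contrB noloop_TP)
open Vale.Agent.P148.R2.H172 (Frame blk sc fsc fsc_eq fscOf mc xb frm nA ga arcO HO WO gX combLaw GoodT)
open Vale.Agent.P148.R2.H291 (SiteOK site bR)
open Vale.Agent.P148.R2.H678 (wd)
open _root_.P148 _root_.P148.H729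

universe u

/-- The arc of a frame is nonempty. -/
theorem arc_ne {M : ℕ} {T : Set Pt} (hS : SiteOK T 9 (ms M / 1000)) (hM0 : 0 < M) {N : ℕ}
    (hN : 10 * (N + 1) ≤ 2 * M + 1) {i : (site T 9 → Bool) × (site T 9 → Bool)}
    (hi : (fscOf hM0 hS.hull).p i ≠ 0)
    (F : Frame M (wd hS.hull M (mc M (site T 9) i)) (xb hS.hull) (mc M (site T 9) i)) {j : ℕ}
    (hj : j < nA N) : ∃ s, F.arc N j = arc (TP (wd hS.hull M (mc M (site T 9) i)) (xb hS.hull))
      (wd hS.hull M (mc M (site T 9) i)).T (wd hS.hull M (mc M (site T 9) i)).O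
      (F.bc (ga N M j)) s ∧ (F.arc N j).Nonempty := by
  have hms := ms_pos hM0
  have hms1 : ms M ≤ 1 := Vale.Agent.P148.R2.N.ms_le_one
  let _ := H172.fX hS.hull
  have hA := H172.fscOf_A0 hM0 hS.hull hi
  have hC := H678.col_site hS (by norm_num) hM0 hA
  have hX := H678.center_site hS
  have hWD := H678.wd_facts hC hX
  have hlast : ga N M (j + 1) ≤ nc M := by
    rw [← H172.ga_last (N := N)]
    exact H172.ga_mono hj
  have hcn := H678.ctr_nsup hX M
  have hcm := H678.ctr_mem hX
  obtain ⟨s, hs1, hs2, hs3⟩ := F.arc_eq hlast (H172.ga_mono (Nat.le_succ j))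
  have hfB : (wd hS.hull M (mc M (site T 9) i)).B = site T 9 \ H419.I0 M (site T 9)
      (H938.pc Subtype.val true i.1) (H938.pc Subtype.val false i.1)
      (H938.pc Subtype.val true i.2) (H938.pc Subtype.val false i.2) (H678.ctr (site T 9)) := by
    have h1 := hWD.B_eq
    have h2 : (wd hS.hull M (mc M (site T 9) i)).B = (H678.wrd hC.hull (H419.E0 M (site T 9)
        (H938.pc Subtype.val true i.1) (H938.pc Subtype.val false i.1)
        (H938.pc Subtype.val true i.2) (H938.pc Subtype.val false i.2))).B := by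
      show (H678.wrd hS.hull (H678.E0X M (site T 9) (H678.cw M i.1 i.2))).B = _
      rw [H678.E0X_eq]
    rw [h2, h1]
    rfl
  obtain ⟨cut, hcut1, hcut2, -, hD⟩ := H419.door_data_ga (w := wd hS.hull M (mc M (site T 9) i))
    (x₀ := xb hS.hull) hC (H678.cs_val _) F hfB hcn hN hj (F.base_loop (ga N M j))
    (ρ := ms M / 1000) (by positivity) (by linarith)
    (fun z hz => by
      have h5 := H291.norm_le_nsup z
      obtain ⟨v, hv, hd⟩ := hS.net (ρ := ms M / 1000 / 8) le_rfl z (by
        rw [mem_closedBall_zero_iff]; linarith)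
      exact ⟨v, hv, by rw [dist_comm]; linarith⟩)
    ⟨hcm.1, by
      have h6 := hcm.2
      rw [mem_ball_zero_iff] at h6 ⊢
      linarith⟩ (arch := ∅) (fun a ha => absurd ha (Set.notMem_empty a))
  have hle : F.t (ga N M j) ≤ F.t (ga N M (j + 1)) := F.lt.mono (H172.ga_mono (Nat.le_succ j))
  have htb : F.tb (ga N M j) (ga N M (j + 1) - ga N M j) =
      F.t (ga N M (j + 1)) - F.t (ga N M j) := by
    unfold Frame.tb
    rw [Nat.add_sub_cancel' (H172.ga_mono (Nat.le_succ j))]
  rw [htb] at hs2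
  have hsc : s = cut := by
    have h7 : ∀ i < F.bn (ga N M j), i < s ↔ i < cut := fun i hi => (hs2 i hi).trans
      (hcut2 i hi).symm
    rcases Nat.lt_trichotomy s cut with h | h | h
    · have := (h7 s (by omega)).2 h
      omega
    · exact h
    · have := (h7 cut (by omega)).1 h
      omega
  refine ⟨s, hs3, ?_⟩
  show (H609.Bq _ _).Nonempty
  rw [hs3, hsc]
  exact hD.ne

/-- **Row val**, from the identification of the cells. -/
theorem row_val_of {Θ : Dt → ℂ} (hID : ∀ᶠ M in atTop, ∀ T : Set Pt, ∀ hM : 0 < M,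
      ∀ hS : SiteOK T 9 (ms M / 1000), ∀ i, (fscOf hM hS.hull).p i ≠ 0 →
      ∀ F : Frame M (wd hS.hull M (mc M (site T 9) i)) (xb hS.hull) (mc M (site T 9) i),
      frm hS.hull M (mc M (site T 9) i) = some F → CellID F Θ) (N : ℕ) :
    ∀ᶠ M in atTop, Ev.{u} fun T => ∀ i, (sc N M T).p i ≠ 0 → ∀ J σ d,
      ((sc N M T).w i).cap ((sc N M T).Arc i J) σ d →
      ENNReal.ofReal (‖(fsc M T).hv N Θ i J σ d‖ ^ 2) ≤
        2 * (fsc M T).mx Θ i + 2 * (fsc M T).wn N Θ i J σ d := by
  obtain ⟨c, hc, hG⟩ := H172.exists_goodT.{u}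
  filter_upwards [hID, eventually_ge_atTop (10 * (N + 1) + 8)] with M hM1 hM2
  have hM : 0 < M := by omega
  refine (hG M hM).mono fun T hT => ?_
  have hS := hT.site
  show ∀ i, (fsc M T).p i ≠ 0 → ∀ (J : Fin (nA N)) σ d,
      ((fsc M T).w i).cap (arcO N J ((fsc M T).fr i)) σ d → _
  rw [fsc_eq hM hS]
  intro i hi J σ d hcap
  have key : ∀ o : Option (Frame M (wd hS.hull M (mc M (site T 9) i)) (xb hS.hull)
      (mc M (site T 9) i)), frm hS.hull M (mc M (site T 9) i) = o →
      (wd hS.hull M (mc M (site T 9) i)).cap (arcO N J o) σ d →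
      ENNReal.ofReal (‖hvl (wd hS.hull M (mc M (site T 9) i)) (xb hS.hull) (HO N J o) Θ σ d‖ ^ 2) ≤
        2 * mxs M (cval M (wd hS.hull M (mc M (site T 9) i)) (mc M (site T 9) i) Θ) +
        2 * WO N J Θ o σ d := by
    intro o ho hcap
    cases o with
    | none =>
      have : hvl (wd hS.hull M (mc M (site T 9) i)) (xb hS.hull)
          (HO N J (none : Option (Frame M (wd hS.hull M (mc M (site T 9) i)) (xb hS.hull)
          (mc M (site T 9) i)))) Θ σ d = 0 := rfl
      rw [this]
      simp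
    | some F =>
      obtain ⟨s, hs, hne⟩ := arc_ne hS hM (N := N) (by omega) hi F J.2
      have hcap' : (wd hS.hull M (mc M (site T 9) i)).cap (F.arc N J) σ d := hcap
      rw [hs] at hcap' hne
      exact val_frame F hM (fun k q hq => site_cc hS hM k q hq) (hM1 T hM hS i hi F ho)
        (ga N M J) hne hcap'
  have h1 := key _ rfl hcap
  have h2 : (fscOf hM hS.hull).mx Θ i =
      mxs M (cval M (wd hS.hull M (mc M (site T 9) i)) (mc M (site T 9) i) Θ) := by
    unfold H172.FScene.mx
    congr 1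
    funext k
    exact H172.FScene.cv_eq _ Θ i k
  rw [h2]
  exact h1

end Vale.Agent.P148.R2.H659
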