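import Vale.Agent.P148.R2.H659.ValW
import Vale.Agent.P148.R2.H172.Sc5
import Vale.Agent.P148.R2.H419.Col8
import Vale.Agent.P148.R2.H678.Br2

/-!
# The value of the closing chain, on the frames of the scene

`cval` : the values of the cells. `CellID F Θ` : the sums over the full cells of the frame are the values of
the cells. `val_full` : full cells of any base gate. `val_frame`, `val_scene` : row val for one world,
from `CellID`.
-/

open Set Metric Function
open scoped ENNReal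

namespace Vale.Agent.P148.R2.H659

open Vale.Agent.P148.R2.H258 Vale.Agent.P148.R2.H871 Vale.Agent.P148.R2.H565
open Vale.Agent.P148.R2.H184 Vale.Agent.P148.R2.H203
open Vale.Agent.P148.R2.H592 (idmap fib_id tail head vc cr Fc)
open Vale.Agent.P148.R2.N (ms nc gateC cellC csq ms_pos)
open Vale.Agent.P148.R2.H959 (reg)
open Vale.Agent.P148.R2.H488 (cw hc cw_ne)
open Vale.Agent.P148.R2.H504 (arcSum)
open Vale.Agent.P148.R2.H598 (mxs le_mxs)
open Vale.Agent.P148.R2.H566 (W0 Asq Ev)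
open Vale.Agent.P148.R2.H609 (TP piX)
open Vale.Agent.P148.R2.H400 (hvl clH lst Start Facing contrB noloop_TP)
open Vale.Agent.P148.R2.H172 (Frame blk)
open Vale.Agent.P148.R2.H291 (SiteOK site bR)
open _root_.P148 _root_.P148.H729

section frame

variable {M : ℕ} {w : W0} {x₀ : w.X} {col : w.X → Bool} (F : Frame M w x₀ col) {Θ : Dt → ℂ}

/-- The value of the cell `k`. -/
noncomputable def cval (M : ℕ) (w : W0) (col : w.X → Bool) (Θ : Dt → ℂ) (k : ℕ) : ℂ :=
  cellV M w.X (blk col) (cw (hc M k) Θ) k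

/-- The sums over the full cells of the frame are the values of the cells. -/
def CellID (F : Frame M w x₀ col) (Θ : Dt → ℂ) : Prop :=
  ∀ k, 2 ≤ k → sideSum (TP w x₀) col F.o (F.t (k - 2)) (F.t (k + 3))
    (wt w.hull (idmap w.X x₀) (fib_id w.X x₀) (cw (hc M k) Θ)) = cval M w col Θ (k % nc M)

variable {F}

/-- A full cell, seen from the foot of the gate `g`. -/
theorem val_cell (hID : CellID F Θ) (g : ℕ) {k : ℕ} (hk : 2 ≤ k) :
    sideSum (TP w x₀) col (F.ob g) (F.tb g (k - 2)) (F.tb g (k + 3))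
      (wt w.hull (idmap w.X x₀) (fib_id w.X x₀) (cw (hc M (g + k)) Θ)) =
      cval M w col Θ ((g + k) % nc M) := by
  rw [← hID (g + k) (by omega)]
  unfold Frame.ob Frame.tb
  have e1 := F.lt.mono (show g ≤ g + (k - 2) by omega)
  have e2 := F.lt.mono (show g ≤ g + (k + 3) by omega)
  rw [sideSum_shift, Nat.add_sub_cancel' e1, Nat.add_sub_cancel' e2,
    show g + k - 2 = g + (k - 2) by omega, ← add_assoc]

/-- **The full cells of a base gate.** -/
theorem val_full (hID : CellID F Θ) (g : ℕ) {p q : ℕ} (hpq : p + 2 ≤ q - 1) (hq : q < nc M) :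
    ∑ k ∈ Finset.Ico (p + 2) (q - 1),
      sideSum (TP w x₀) col (F.ob g) (F.tb g (k - 2)) (F.tb g (k + 3))
        (wt w.hull (idmap w.X x₀) (fib_id w.X x₀) (cw (hc M (g + k)) Θ)) =
      arcSum (nc M) (cval M w col Θ) ((g + (p + 2)) % nc M) ((g + (q - 1)) % nc M) := by
  have hn : 0 < nc M := by omega
  rw [← sum_mod_eq_arcSum (cval M w col Θ) hn (by omega) (by omega), add_comm g (p + 2),
    add_comm g (q - 1), ← Finset.sum_Ico_add']
  apply Finset.sum_congr rfl
  intro k hk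
  rw [Finset.mem_Ico] at hk
  rw [add_comm k g]
  exact val_cell hID g (by omega)

/-- The pieces of the based frame are seen in the regions. -/
theorem base_seen (F : Frame M w x₀ col) (g k i : ℕ) (h1 : F.tb g k ≤ i) (h2 : i < F.tb g (k + 1)) :
    tail (((TP w x₀).st col)^[i] (F.ob g)) ∈ reg M (g + k) := by
  unfold Frame.tb at h1 h2
  rw [← add_assoc] at h2
  have h3 := (F.seen (g + k) (i + F.t g) (by omega) (by omega)).1
  rw [src0] at h3
  unfold Frame.ob
  rw [← iterate_add_apply]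
  exact h3

/-- The parts of the weight add up along the based frame. -/
theorem base_sum (F : Frame M w x₀ col) (hM : 0 < M)
    (hcc : ∀ k, ∀ q : w.D, tail q ∈ reg M k → cr (dt q).1 (dt q).2.1 (dt q).2.2 ≠ 0 ∧
      cc (dt q) ∈ csq (tail q) (ms M / 16)) (g m : ℕ) (hm : m < per (TP w x₀) col (F.ob g)) :
    wt w.hull (idmap w.X x₀) (fib_id w.X x₀) Θ (((TP w x₀).st col)^[m] (F.ob g)) =
      ∑ k ∈ Finset.range (nc M), wt w.hull (idmap w.X x₀) (fib_id w.X x₀) (cw (hc M (g + k)) Θ)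
        (((TP w x₀).st col)^[m] (F.ob g)) := by
  classical
  obtain ⟨j, h1, h2⟩ := (F.base_feet g).loc m
  obtain ⟨c1, c2⟩ := hcc _ _ (base_seen F g j m h1 h2)
  simp only [wt]
  split_ifs
  · exact sum_cw_hc hM (base_seen F g j m h1 h2) c1 c2
  · simp

/-- The parts of the weight live near their cells. -/
theorem base_supp (F : Frame M w x₀ col) (hM : 0 < M)
    (hcc : ∀ k, ∀ q : w.D, tail q ∈ reg M k → cr (dt q).1 (dt q).2.1 (dt q).2.2 ≠ 0 ∧
      cc (dt q) ∈ csq (tail q) (ms M / 16)) (g k : ℕ) (hk : k < nc M) (j : ℕ) (hj : j < nc M)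
    (m : ℕ) (h1 : F.tb g j ≤ m) (h2 : m < F.tb g (j + 1))
    (hne : wt w.hull (idmap w.X x₀) (fib_id w.X x₀) (cw (hc M (g + k)) Θ)
      (((TP w x₀).st col)^[m] (F.ob g)) ≠ 0) : Nr (nc M) j k := by
  classical
  obtain ⟨c1, c2⟩ := hcc _ _ (base_seen F g j m h1 h2)
  apply nr_of_hc hM hk hj (base_seen F g j m h1 h2) c2
  simp only [wt] at hne
  split_ifs at hne with hgd
  · exact (cw_ne hne).2.1
  · exact absurd rfl hne

theorem injOff (w : W0) (x₀ : w.X) : H400.InjOff (piX w) w.O := by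
  intro u v huv hu
  have h1 := H400.secB_piB (B := w.B) x₀ (v := u) hu
  have h2 := H400.secB_piB (B := w.B) x₀ (v := v) (fun hh => hu (huv.trans hh))
  rw [← h1, ← h2]
  exact congrArg _ huv

/-- **The value of the closing chain of a captured excursion, on a frame.** -/
theorem val_frame (F : Frame M w x₀ col) (hM : 0 < M)
    (hcc : ∀ k, ∀ q : w.D, tail q ∈ reg M k → cr (dt q).1 (dt q).2.1 (dt q).2.2 ≠ 0 ∧
      cc (dt q) ∈ csq (tail q) (ms M / 16)) (hID : CellID F Θ) (g : ℕ) {s : ℕ}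
    {σ : w.V → Bool} {d : w.D} (hne : (arc (TP w x₀) w.T w.O (F.bc g) s).Nonempty)
    (hcap : w.cap (arc (TP w x₀) w.T w.O (F.bc g) s) σ d) :
    ENNReal.ofReal (‖hvl w x₀ (F.bH g) Θ σ d‖ ^ 2) ≤ 2 * mxs M (cval M w col Θ) +
      2 * ENNReal.ofReal (H126.wnd (TP w x₀) w.T (nc M) (F.tb g) (F.bt g) (F.bc g) (F.bn g)
        (fun k => wt w.hull (idmap w.X x₀) (fib_id w.X x₀) (cw (hc M (g + k)) Θ)) σ d) := by
  have hn : 12 ≤ nc M := by unfold nc; omega
  have hn0 : 0 < nc M := by omega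
  have hP : (TP w x₀).Planar := w.hull.planar258 _ _
  obtain ⟨hdO, hdS, hdF, -, -⟩ := hcap
  obtain ⟨p, q, hpq, hqK, h1⟩ := H126.val_le hP w.planar (contrB w.hull w.fib x₀) (injOff w x₀)
    (F.base_feet g) (F.base_loop g) (F.base_main g) (by omega) (fun f => noloop_TP f) hdS hdO hdF
    hne (Θ := wt w.hull (idmap w.X x₀) (fib_id w.X x₀) Θ)
    (ϑ := fun k => wt w.hull (idmap w.X x₀) (fib_id w.X x₀) (cw (hc M (g + k)) Θ))
    (fun m hm => base_sum F hM hcc g m hm)
    (fun k hk j hj m h1 h2 hne => base_supp F hM hcc g k hk j hj m h1 h2 hne)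
  have e0 : hvl w x₀ (F.bH g) Θ σ d = H126.wpart (TP w x₀) w.T (F.bc g) (F.bn g)
      (wt w.hull (idmap w.X x₀) (fib_id w.X x₀) Θ) σ d := rfl
  rw [e0]
  have hw0 : 0 ≤ H126.wnd (TP w x₀) w.T (nc M) (F.tb g) (F.bt g) (F.bc g) (F.bn g)
      (fun k => wt w.hull (idmap w.X x₀) (fib_id w.X x₀) (cw (hc M (g + k)) Θ)) σ d := by
    unfold H126.wnd
    exact mul_nonneg (by norm_num) (Finset.sum_nonneg fun _ _ => by positivity)
  have hmid : ENNReal.ofReal (‖∑ k ∈ Finset.Ico (p + 2) (q - 1),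
      sideSum (TP w x₀) col (F.ob g) (F.tb g (k - 2)) (F.tb g (k + 3))
        (wt w.hull (idmap w.X x₀) (fib_id w.X x₀) (cw (hc M (g + k)) Θ))‖ ^ 2) ≤
      mxs M (cval M w col Θ) := by
    rcases Nat.lt_or_ge (p + 2) (q - 1) with h | h
    · rw [val_full hID g h.le hqK]
      exact le_mxs _ (Nat.mod_lt _ hn0).le (Nat.mod_lt _ hn0).le
    · rw [Finset.Ico_eq_empty_of_le h]
      simp
  refine (ENNReal.ofReal_le_ofReal h1).trans ?_
  rw [ENNReal.ofReal_add (by positivity) (by positivity), ENNReal.ofReal_mul (by norm_num),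
    ENNReal.ofReal_mul (by norm_num)]
  have e2 : ENNReal.ofReal 2 = 2 := by norm_num
  rw [e2]
  gcongr

end frame

/-! ### the sites of a configuration -/

section site

variable {M : ℕ} {T : Set Pt}

theorem site_cc (hS : SiteOK T 9 (ms M / 1000)) (hM : 0 < M) (k : ℕ)
    (q : Fc (site T 9) (bR 9) × ZMod 3) (hq : tail q ∈ reg M k) :
    cr (dt q).1 (dt q).2.1 (dt q).2.2 ≠ 0 ∧ cc (dt q) ∈ csq (tail q) (ms M / 16) := by
  have h0 := ms_pos hM
  have h1 : ms M ≤ 1 := N.ms_le_one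
  have h2 := (H959.reg_nsup hM hq).2
  have h3 := H291.norm_le_nsup (tail q)
  have h4 : tail q ∈ closedBall (0 : ℂ) (9 - 1) := by
    rw [mem_closedBall_zero_iff]
    linarith
  have h5 := hS.lf h4
  refine ⟨h5.2.1.ne', ?_⟩
  have h6 : cc (dt q) ∈ closedBall (tail q) (ms M / 1000 / 4) :=
    h5.2.2.1 (mem_closedBall_self dist_nonneg)
  rw [mem_closedBall, Complex.dist_eq] at h6
  rw [N.mem_csq]
  have a1 := Complex.abs_re_le_norm (cc (dt q) - tail q)
  have a2 := Complex.abs_im_le_norm (cc (dt q) - tail q)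
  rw [Complex.sub_re] at a1
  rw [Complex.sub_im] at a2
  exact ⟨by linarith, by linarith⟩

end site

end Vale.Agent.P148.R2.H659
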