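import Vale.Agent.P148.R2.H659.Close2
import Vale.Agent.P148.R2.H565.Loc2

/-!
# The main class of a closed ring of tubes

`t k` are the passing times of the feet of a closed ring of `K` tubes (extended periodically).  The
members of the main class are exactly the local members: whether a time of piece `k` is a member is
decided by the pieces `k - 1`, `k`, `k + 1`.
-/

namespace Vale.Agent.P148.R2.H659

open Function Vale.Agent.P148.R2.H258 Vale.Agent.P148.R2.H871 Vale.Agent.P148.R2.H565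

variable {V V1 D : Type*} {T : Tri V D}

/-- Passing times of the feet of a closed ring, periodic extension. -/
structure Feet (T : Tri V D) (σ : V → Bool) (o : D) (K : ℕ) (t : ℕ → ℕ) : Prop where
  four : 4 ≤ K
  bi : T.Bi σ o
  zero : t 0 = 0
  inc : ∀ k, t k < t (k + 1)
  add : ∀ k, t (k + K) = t k + per T σ o
  far : ∀ j k a b, j + 2 ≤ k → k + 2 ≤ j + K → t j ≤ a → a ≤ t (j + 1) → t k ≤ b →
    b ≤ t (k + 1) → sa T σ o a ≠ sa T σ o b

/-- A time of a local member of piece `k`. -/
def Lm (T : Tri V D) (σ : V → Bool) (o : D) (t : ℕ → ℕ) (k m : ℕ) : Prop :=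
  1 ≤ k ∧ t k ≤ m ∧ m < t (k + 1) ∧ T.Mi σ ((T.st σ)^[m] o) ∧
    DisjOn T σ o (t (k - 1)) (t (k + 2)) m

variable {σ : V → Bool} {o : D} {K : ℕ} {t : ℕ → ℕ}

theorem Feet.smono (h : Feet T σ o K t) {j k : ℕ} (hjk : j < k) : t j < t k :=
  strictMono_nat_of_lt_succ h.inc hjk

theorem Feet.mono (h : Feet T σ o K t) {j k : ℕ} (hjk : j ≤ k) : t j ≤ t k :=
  (strictMono_nat_of_lt_succ h.inc).monotone hjk

theorem Feet.addn (h : Feet T σ o K t) (k c : ℕ) : t (k + c * K) = t k + c * per T σ o := by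
  induction c with
  | zero => simp
  | succ c ih =>
    rw [show k + (c + 1) * K = k + c * K + K by ring, h.add, ih]
    ring

/-- The piece of a time. -/
theorem Feet.loc (h : Feet T σ o K t) (m : ℕ) : ∃ k, t k ≤ m ∧ m < t (k + 1) := by
  classical
  have hge : ∀ k, k ≤ t k := fun k => (strictMono_nat_of_lt_succ h.inc).le_apply
  have hex : ∃ k, m < t (k + 1) := ⟨m, lt_of_lt_of_le (Nat.lt_succ_self m) (hge (m + 1))⟩
  refine ⟨Nat.find hex, ?_, Nat.find_spec hex⟩
  rcases Nat.eq_zero_or_pos (Nat.find hex) with h0 | h0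
  · rw [h0, h.zero]; exact Nat.zero_le _
  · have := Nat.find_min hex (m := Nat.find hex - 1) (by omega)
    rw [Nat.sub_add_cancel h0] at this
    omega

theorem Feet.loc' (h : Feet T σ o K t) {m : ℕ} (hm : 1 ≤ m) : ∃ k, t k < m ∧ m ≤ t (k + 1) := by
  obtain ⟨k, h1, h2⟩ := h.loc (m - 1)
  exact ⟨k, by omega, by omega⟩

theorem st_addn [Finite D] (m c : ℕ) :
    (T.st σ)^[m + c * per T σ o] o = (T.st σ)^[m] o := by
  induction c with
  | zero => simp
  | succ c ih =>
    rw [show m + (c + 1) * per T σ o = m + c * per T σ o + per T σ o by ring, iterate_add_apply]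
    have : (T.st σ)^[per T σ o] o = o := iterate_minimalPeriod
    rw [this, ih]

theorem sa_addn [Finite D] (m c : ℕ) : sa T σ o (m + c * per T σ o) = sa T σ o m := by
  unfold sa
  rw [st_addn]

theorem disjOn_addn [Finite D] {a b n : ℕ} (c : ℕ) (h : DisjOn T σ o a b n) :
    DisjOn T σ o (a + c * per T σ o) (b + c * per T σ o) (n + c * per T σ o) := by
  intro i j h1 h2 h3 h4 h5
  have := h (i - c * per T σ o) (j - c * per T σ o) (by omega) (by omega) (by omega) (by omega)
  apply this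
  rw [← sa_addn (i - c * per T σ o) c, ← sa_addn (j - c * per T σ o) c,
    Nat.sub_add_cancel (by omega), Nat.sub_add_cancel (by omega)]
  exact h5

/-- Local members are periodic. -/
theorem Feet.lm_addn [Finite D] (h : Feet T σ o K t) {k m : ℕ} (hm : Lm T σ o t k m) (c : ℕ) :
    Lm T σ o t (k + c * K) (m + c * per T σ o) := by
  obtain ⟨h0, h1, h2, h3, h4⟩ := hm
  refine ⟨by omega, ?_, ?_, ?_, ?_⟩
  · rw [h.addn]; omega
  · rw [show k + c * K + 1 = k + 1 + c * K by ring, h.addn]; omega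
  · rw [st_addn]; exact h3
  · rw [show k + c * K - 1 = k - 1 + c * K by omega, show k + c * K + 2 = k + 2 + c * K by ring,
      h.addn, h.addn]
    exact disjOn_addn c h4

/-- Local disjointness extends to wide windows. -/
theorem Feet.wide (h : Feet T σ o K t) {k m : ℕ} (h1 : t k ≤ m)
    (h2 : m < t (k + 1)) (hD : DisjOn T σ o (t (k - 1)) (t (k + 2)) m) {a b j : ℕ}
    (ha : t j ≤ a) (hb : b ≤ t (j + K - 1)) : DisjOn T σ o a b m := by
  have h4 := h.four
  intro i l hi1 hi2 hl1 hl2 he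
  obtain ⟨p, hp1, hp2⟩ := h.loc i
  obtain ⟨q, hq1, hq2⟩ := h.loc' (m := l) (by omega)
  have hpk : p ≤ k := by
    by_contra hc
    have := h.mono (show k + 1 ≤ p by omega)
    omega
  have hkq : k ≤ q := by
    by_contra hc
    have := h.mono (show q + 1 ≤ k by omega)
    omega
  have hjp : j ≤ p := by
    by_contra hc
    have := h.mono (show p + 1 ≤ j by omega)
    omega
  have hqj : q + 1 ≤ j + K - 1 := by
    by_contra hc
    have := h.mono (show j + K - 1 ≤ q by omega)
    omega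
  by_cases hpq : p + 2 ≤ q
  · exact h.far p q i l hpq (by omega) hp1 hp2.le hq1.le hq2 he
  · refine hD i l ?_ hi2 hl1 ?_ he
    · have := h.mono (show k - 1 ≤ p by omega)
      omega
    · have := h.mono (show q + 1 ≤ k + 2 by omega)
      omega

/-- **(A)** Every piece contains a local member. -/
theorem Feet.exists_lm [Finite D] (hP : T.Planar) (h : Feet T σ o K t) {k : ℕ} (hk : 1 ≤ k) :
    ∃ m, Lm T σ o t k m := by
  classical
  have h4 := h.four
  set Q : ℕ → Prop := fun j => ∃ i, t (k - 1) ≤ i ∧ i ≤ t k ∧ sa T σ o i = sa T σ o j with hQdef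
  have hQ : Q (t k) := ⟨t k, h.mono (by omega), le_rfl, rfl⟩
  have hm1 := Nat.le_findGreatest (P := Q) (h.mono (show k ≤ k + 2 by omega)) hQ
  have hmQ := Nat.findGreatest_spec (P := Q) (h.mono (show k ≤ k + 2 by omega)) hQ
  have hmax : ∀ j, Nat.findGreatest Q (t (k + 2)) < j → j ≤ t (k + 2) → ¬ Q j :=
    fun j a b => Nat.findGreatest_is_greatest a b
  have hm3 : Nat.findGreatest Q (t (k + 2)) ≤ t (k + 2) := Nat.findGreatest_le _
  set m := Nat.findGreatest Q (t (k + 2)) with hm
  obtain ⟨i0, a1, a2, a3⟩ := hmQ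
  have hm2 : m < t (k + 1) := by
    by_contra hc
    exact h.far (k - 1) (k + 1) i0 m (by omega) (by omega) a1
      (by rwa [Nat.sub_add_cancel hk]) (by omega) hm3 a3
  have hk12 : t (k + 1) < t (k + 2) := h.inc (k + 1)
  have hper := h.add (k - 1)
  have hk3 := h.mono (show k + 2 ≤ k - 1 + K by omega)
  have hmi : T.Mi σ ((T.st σ)^[m] o) := mi_of_ne T h.bi (fun hh =>
    hmax (m + 1) (by omega) (by omega) ⟨i0, a1, a2, by rw [hh]; exact a3⟩)
  refine ⟨m, hk, hm1, hm2, hmi, ?_⟩
  intro i j b1 b2 b3 b4 b5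
  by_cases hi : i ≤ t k
  · exact hmax j b3 b4 ⟨i, b1, hi, b5⟩
  · by_cases him : i = m
    · exact hmax j b3 b4 ⟨i0, a1, a2, by rw [a3, ← him]; exact b5⟩
    · have := non_cross T hP h.bi (i := i0) (j := i) (k := m) (l := j) (by omega) (by omega) b3
        (by omega) a3.symm b5.symm
      exact hmax j b3 b4 ⟨i0, a1, a2, by rw [← this]; exact b5⟩

theorem Feet.rel_of_lt [Finite D] (h : Feet T σ o K t) {k k' m m' : ℕ} (hm : Lm T σ o t k m)
    (hm' : Lm T σ o t k' m') (hlt : m ≤ m') (hlt' : m' < m + per T σ o) :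
    T.Rel σ ((T.st σ)^[m] o) ((T.st σ)^[m'] o) := by
  have h4 := h.four
  have hmL := h.lm_addn hm 1
  rw [one_mul, one_mul] at hmL
  obtain ⟨c0, c1, c2, c3, c4⟩ := hm
  obtain ⟨c0', c1', c2', c3', c4'⟩ := hm'
  obtain ⟨-, d1, d2, -, d4⟩ := hmL
  refine ⟨c3, c3', m' - m, ?_, ?_, ?_⟩
  · change _ < per T σ _
    rw [per_iter]; omega
  · rw [← iterate_add_apply, show m' - m + m = m' by omega]
  · intro i j a1 a2 a3 a4 a5
    change j ≤ per T σ _ at a4
    rw [per_iter] at a4
    rw [← iterate_add_apply, ← iterate_add_apply] at a5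
    change sa T σ o (i + m) = sa T σ o (j + m) at a5
    obtain ⟨p, hp1, hp2⟩ := h.loc (i + m)
    obtain ⟨q, hq1, hq2⟩ := h.loc' (m := j + m) (by omega)
    by_cases hpq : q + 2 ≤ p + K
    · exact h.wide c1' c2' c4' hp1 (hq2.trans (h.mono (by omega))) (i + m) (j + m) le_rfl
        (by omega) (by omega) le_rfl a5
    · have e1 := h.add (p + 1)
      have e2 := h.mono (show p + 1 + K ≤ q + K - 1 by omega)
      refine h.wide d1 d2 d4 (a := j + m) (b := i + m + per T σ o) hq1.le (by omega) (j + m)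
        (i + m + per T σ o) le_rfl (by omega) (by omega) le_rfl ?_
      rw [sa_add_per]; exact a5.symm

/-- **(B)** The local members are one class. -/
theorem Feet.rel_lm [Finite D] (h : Feet T σ o K t) {k k' m m' : ℕ} (hm : Lm T σ o t k m)
    (hm' : Lm T σ o t k' m') : T.Rel σ ((T.st σ)^[m] o) ((T.st σ)^[m'] o) := by
  have hL : 0 < per T σ o := per_pos T σ o
  set L := per T σ o with hLdef
  have h1 : m ≤ m' + m * L := by
    have : m * 1 ≤ m * L := Nat.mul_le_mul_left m hL
    omega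
  set c := (m' + m * L - m) / L with hc
  have h2 := Nat.div_add_mod (m' + m * L - m) L
  have h3 := Nat.mod_lt (m' + m * L - m) hL
  rw [← hc, mul_comm] at h2
  have h4 := h.lm_addn hm c
  have h5 := h.lm_addn hm' m
  rw [← hLdef] at h4 h5
  have := h.rel_of_lt h4 h5 (by omega) (by omega)
  rw [← st_addn (T := T) (σ := σ) (o := o) m c, ← st_addn (T := T) (σ := σ) (o := o) m' m,
    ← hLdef]
  exact this

/-- A dart related to a local member is a local member. -/
theorem Feet.lm_of_rel [Finite D] (hP : T.Planar) (h : Feet T σ o K t) {k0 m0 k m : ℕ}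
    (hm0 : Lm T σ o t k0 m0) (hk : 1 ≤ k) (h1 : t k ≤ m) (h2 : m < t (k + 1))
    (hr : T.Rel σ ((T.st σ)^[m0] o) ((T.st σ)^[m] o)) : Lm T σ o t k m := by
  have h4 := h.four
  obtain ⟨m1, hm1⟩ := h.exists_lm hP (k := k + 2) (by omega)
  have hr1 : T.Rel σ ((T.st σ)^[m] o) ((T.st σ)^[m1] o) :=
    T.rel_trans (T.rel_symm hr) (h.rel_lm hm0 hm1)
  obtain ⟨-, c1, c2, -, -⟩ := hm1
  refine ⟨hk, h1, h2, hr.2.1, ?_⟩
  have e1 := h.mono (show k + 1 ≤ k + 2 by omega)
  have e2 := h.mono (show k + 2 + 1 ≤ k - 1 + K by omega)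
  have e3 := h.add (k - 1)
  have e4 := h.mono (show k - 1 ≤ k by omega)
  have hn : m1 - m < per T σ ((T.st σ)^[m] o) := by rw [per_iter]; omega
  have hr2 : T.Rel σ ((T.st σ)^[m] o) ((T.st σ)^[m1 - m] ((T.st σ)^[m] o)) := by
    rw [← iterate_add_apply, show m1 - m + m = m1 by omega]; exact hr1
  have hD := ((rel_iter T hr.2.1 hn).1 hr2).2
  rw [disj_iff] at hD
  intro i j a1 a2 a3 a4 a5
  apply hD (j - m) (i + per T σ o - m) (by omega) (by omega) (by omega)
    (by rw [per_iter]; omega)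
  rw [sa_add, sa_add, show m + (j - m) = j by omega,
    show m + (i + per T σ o - m) = i + per T σ o by omega, sa_add_per]
  exact a5.symm

/-- **(C)** Membership in the main class is local. -/
theorem Feet.rel_iff [Finite D] (hP : T.Planar) (h : Feet T σ o K t) {k0 m0 k m : ℕ}
    (hm0 : Lm T σ o t k0 m0) (hk : 1 ≤ k) (h1 : t k ≤ m) (h2 : m < t (k + 1)) {a b j : ℕ}
    (ha : a ≤ t (k - 1)) (hb : t (k + 2) ≤ b) (hja : t j ≤ a) (hjb : b ≤ t (j + K - 1)) :
    T.Rel σ ((T.st σ)^[m0] o) ((T.st σ)^[m] o) ↔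
      T.Mi σ ((T.st σ)^[m] o) ∧ DisjOn T σ o a b m := by
  constructor
  · intro hr
    obtain ⟨-, -, -, c3, c4⟩ := h.lm_of_rel hP hm0 hk h1 h2 hr
    exact ⟨c3, h.wide h1 h2 c4 hja hjb⟩
  · rintro ⟨c3, c4⟩
    exact h.rel_lm hm0 ⟨hk, h1, h2, c3, fun i l b1 b2 b3 b4 => c4 i l (by omega) b2 b3 (by omega)⟩

/-- **(D)** A class met by all walks from `z` to `ω` is the main class, if `z` is joined to `ω` off
any three consecutive pieces. -/
theorem Feet.lm_of_sep [Finite D] (h : Feet T σ o K t) {z ω : V} {m : ℕ}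
    (hm : T.Mi σ ((T.st σ)^[m] o))
    (hsep : ∀ l, T.Walk z ω l → ∃ f ∈ l, ∃ g, T.Rel σ ((T.st σ)^[m] o) g ∧ T.src g = T.src f)
    (hz : ∀ k, ∃ l, T.Walk z ω l ∧ ∀ f ∈ l, ∀ i, t k ≤ i → i ≤ t (k + 3) →
      sa T σ o i ≠ T.src f) {k : ℕ} (hk : 1 ≤ k) (h1 : t k ≤ m) (h2 : m < t (k + 1)) :
    Lm T σ o t k m := by
  refine ⟨hk, h1, h2, hm, ?_⟩
  intro i j a1 a2 a3 a4 a5
  obtain ⟨l, hl, hoff⟩ := hz (k - 1)
  obtain ⟨f, hf, g, ⟨-, -, n, hn, hng, hD⟩, hgf⟩ := hsep l hl
  change n < per T σ _ at hn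
  rw [per_iter] at hn
  rw [show k - 1 + 3 = k + 2 by omega] at hoff
  have hg : sa T σ o (n + m) = T.src g := by
    unfold sa; rw [iterate_add_apply, hng]
  have hper := h.mono (show k - 1 ≤ k by omega)
  by_cases hj : n + m < j
  · exact hoff f hf (n + m) (by omega) (by omega) (hg.trans hgf)
  · by_cases hi : i + per T σ o ≤ n + m
    · refine hoff f hf (n + m - per T σ o) (by omega) (by omega) ?_
      rw [← hgf, ← hg, ← sa_add_per T σ o (n + m - per T σ o), Nat.sub_add_cancel (by omega)]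
    · refine hD (j - m) (i + per T σ o - m) (by omega) (by omega) (by omega)
        (by change _ ≤ per T σ _; rw [per_iter]; omega) ?_
      change sa T σ _ _ = sa T σ _ _
      rw [sa_add, sa_add, show m + (j - m) = j by omega,
        show m + (i + per T σ o - m) = i + per T σ o by omega, sa_add_per]
      exact a5.symm

/-- Another base dart. -/
theorem Feet.shift [Finite D] (h : Feet T σ o K t) (j : ℕ) :
    Feet T σ ((T.st σ)^[t j] o) K (fun k => t (j + k) - t j) where
  four := h.four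
  bi := (T.bi_iter (t j)).2 h.bi
  zero := by simp
  inc k := by
    have e1 := h.mono (show j ≤ j + k by omega)
    have e2 := h.inc (j + k)
    show t (j + k) - t j < t (j + (k + 1)) - t j
    rw [← add_assoc]; omega
  add k := by
    have e1 := h.mono (show j ≤ j + k by omega)
    have e2 := h.add (j + k)
    show t (j + (k + K)) - t j = t (j + k) - t j + _
    rw [per_iter, ← add_assoc]; omega
  far a b x y h1 h2 h3 h4 h5 h6 := by
    have e1 := h.mono (show j ≤ j + a by omega)
    have e2 := h.mono (show j ≤ j + b by omega)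
    have e3 := h.mono (show j ≤ j + a + 1 by omega)
    have e4 := h.mono (show j ≤ j + b + 1 by omega)
    rw [← add_assoc] at h4 h6
    rw [sa_add, sa_add]
    exact h.far (j + a) (j + b) _ _ (by omega) (by omega) (by omega) (by omega) (by omega)
      (by omega)

/-- Local members for another base dart. -/
theorem Feet.lm_shift [Finite D] (h : Feet T σ o K t) (j : ℕ) {k m : ℕ} (hk : 1 ≤ k) :
    Lm T σ ((T.st σ)^[t j] o) (fun k => t (j + k) - t j) k m ↔ Lm T σ o t (j + k) (t j + m) := by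
  have e1 := h.mono (show j ≤ j + k by omega)
  have e2 := h.mono (show j ≤ j + k + 1 by omega)
  have e3 := h.mono (show j ≤ j + k + 2 by omega)
  have e4 := h.mono (show j ≤ j + (k - 1) by omega)
  have hD : DisjOn T σ ((T.st σ)^[t j] o) (t (j + (k - 1)) - t j) (t (j + (k + 2)) - t j) m ↔
      DisjOn T σ o (t (j + k - 1)) (t (j + k + 2)) (t j + m) := by
    rw [show j + k - 1 = j + (k - 1) by omega, show j + k + 2 = j + (k + 2) by ring]
    rw [show j + k + 2 = j + (k + 2) by ring] at e3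
    constructor
    · intro hD a b h1 h2 h3 h4
      have := hD (a - t j) (b - t j) (by omega) (by omega) (by omega) (by omega)
      rwa [sa_add, sa_add, show t j + (a - t j) = a by omega, show t j + (b - t j) = b by omega]
        at this
    · intro hD a b h1 h2 h3 h4
      rw [sa_add, sa_add]
      exact hD (t j + a) (t j + b) (by omega) (by omega) (by omega) (by omega)
  unfold Lm
  dsimp only
  rw [hD, ← iterate_add_apply, add_comm m (t j)]
  rw [← add_assoc j k 1]
  constructor
  · rintro ⟨-, c1, c2, c3, c4⟩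
    exact ⟨by omega, by omega, by omega, c3, c4⟩
  · rintro ⟨-, c1, c2, c3, c4⟩
    exact ⟨hk, by omega, by omega, c3, c4⟩

end Vale.Agent.P148.R2.H659
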