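import Vale.Agent.P148.R2.H659.Close3

/-!
# The value of the closing chain

The feet times of a closed ring of tubes and the value of the closing chain: full cells give the five-piece
window values, at most six cells at the two ends give partial sums.
-/

namespace Vale.Agent.P148.R2.H659

open Function Vale.Agent.P148.R2.H258 Vale.Agent.P148.R2.H871 Vale.Agent.P148.R2.H565

variable {V V1 D : Type*} {T : Tri V D} {σ : V → Bool} {o : D} {K : ℕ} {t : ℕ → ℕ}

/-- Periodic extension of the times. -/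
def pext (K L : ℕ) (s : ℕ → ℕ) (k : ℕ) : ℕ := s (k % K) + k / K * L

theorem pext_lt {K L : ℕ} {s : ℕ → ℕ} {r : ℕ} (hr : r < K) (c : ℕ) :
    pext K L s (r + c * K) = s r + c * L := by
  unfold pext
  rw [Nat.add_mul_mod_self_right, Nat.mod_eq_of_lt hr, Nat.add_mul_div_right _ _ (by omega),
    Nat.div_eq_of_lt hr, zero_add]

theorem pext_le {K L : ℕ} {s : ℕ → ℕ} (h0 : s 0 = 0) (hK : s K = L) (hK0 : 0 < K) {r : ℕ}
    (hr : r ≤ K) (c : ℕ) : pext K L s (r + c * K) = s r + c * L := by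
  rcases hr.lt_or_eq with h | h
  · exact pext_lt h c
  · rw [h, show K + c * K = 0 + (c + 1) * K by ring, pext_lt hK0, h0, hK]
    ring

theorem pext_self {K L : ℕ} {s : ℕ → ℕ} (h0 : s 0 = 0) (hK : s K = L) (hK0 : 0 < K) {r : ℕ}
    (hr : r ≤ K) : pext K L s r = s r := by
  have := pext_le h0 hK hK0 hr 0
  simpa using this

/-- **The feet of a closed ring of tubes.** -/
theorem feet_of_ring [Finite D] {d : ℕ → D} {p q : ℕ → List D} {N : ℕ → D → ZMod 2} {s : ℕ → ℕ}
    (h4 : 4 ≤ K) (hC : Chain0 T σ K d p q N) (ht : Times T σ K d N s)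
    (hK : s K = per T σ (d 0)) {P : ℕ → Set V} (hP : ∀ k < K, pv T (d k) (p k) ⊆ P k)
    (hd : ∀ j k, j + 2 ≤ k → k + 2 ≤ j + K → ∀ x, x ∈ P j → x ∉ P k) :
    Feet T σ (d 0) K (pext K (per T σ (d 0)) s) := by
  have hK0 : 0 < K := by omega
  have hpe : ∀ r ≤ K, ∀ c, pext K (per T σ (d 0)) s (r + c * K) = s r + c * per T σ (d 0) :=
    fun r hr c => pext_le ht.t0 hK hK0 hr c
  have hdec : ∀ k, ∃ r c, r < K ∧ k = r + c * K := fun k =>
    ⟨k % K, k / K, Nat.mod_lt _ hK0, by rw [mul_comm]; exact (Nat.mod_add_div k K).symm⟩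
  have key : ∀ j j' a b, j' < K → j + 2 ≤ j' → j' + 2 ≤ j + K → s j ≤ a → a ≤ s (j + 1) →
      s j' ≤ b → b ≤ s (j' + 1) → sa T σ (d 0) a ≠ sa T σ (d 0) b := by
    intro j j' a b h1 h2 h3 h4 h5 h6 h7 h8
    obtain ⟨e1, e2⟩ := hC.mem_pv ht (show j < j' by omega) h1 h4 h5 h6 h7 h8
    exact hd j j' h2 h3 _ (hP j (by omega) e1) (hP j' h1 e2)
  refine ⟨h4, (hC.tube 0 (by omega)).bi, ?_, ?_, ?_, ?_⟩
  · have := hpe 0 (by omega) 0
    rw [zero_mul, add_zero, ht.t0, zero_mul] at this
    exact this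
  · intro k
    obtain ⟨r, c, hr, rfl⟩ := hdec k
    rw [show r + c * K + 1 = r + 1 + c * K by ring, hpe r hr.le, hpe (r + 1) (by omega)]
    have := ht.inc r hr
    omega
  · intro k
    obtain ⟨r, c, hr, rfl⟩ := hdec k
    rw [show r + c * K + K = r + (c + 1) * K by ring, hpe r hr.le, hpe r hr.le]
    ring
  · intro j k a b h1 h2 h3 h4' h5 h6
    obtain ⟨r, c, hr, rfl⟩ := hdec j
    obtain ⟨e, rfl⟩ : ∃ e, k = r + c * K + e := ⟨k - (r + c * K), by omega⟩
    rw [hpe r hr.le] at h3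
    rw [show r + c * K + 1 = r + 1 + c * K by ring, hpe (r + 1) (by omega)] at h4'
    rw [show a = (a - c * per T σ (d 0)) + c * per T σ (d 0) by omega, sa_addn]
    by_cases hre : r + e < K
    · rw [show r + c * K + e = r + e + c * K by ring, hpe (r + e) hre.le] at h5
      rw [show r + c * K + e + 1 = r + e + 1 + c * K by ring, hpe (r + e + 1) (by omega)] at h6
      rw [show b = (b - c * per T σ (d 0)) + c * per T σ (d 0) by omega, sa_addn]
      exact key r (r + e) _ _ hre (by omega) (by omega) (by omega) (by omega) (by omega)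
        (by omega)
    · obtain ⟨r', hr'⟩ : ∃ r', r + e = r' + K := ⟨r + e - K, by omega⟩
      rw [show r + c * K + e = r' + (c + 1) * K by
        rw [show r + c * K + e = r + e + c * K by ring, hr']; ring, hpe r' (by omega)] at h5
      rw [show r + c * K + e + 1 = r' + 1 + (c + 1) * K by
        rw [show r + c * K + e + 1 = r + e + 1 + c * K by ring, hr']; ring,
        hpe (r' + 1) (by omega)] at h6
      rw [show b = (b - (c + 1) * per T σ (d 0)) + (c + 1) * per T σ (d 0) by omega, sa_addn]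
      exact (key r' r _ _ hr (by omega) (by omega) (by omega) (by omega) (by omega)
        (by omega)).symm

/-! ### values -/

section loop

variable {π : V → V1} {O : V1} {w : V → Bool} {n : ℕ} {c : ℕ → D} {τ : ℕ → ℕ}

/-- The class of the loop is the main class of the ring. -/
def Main (T : Tri V D) (w : V → Bool) (o : D) (t : ℕ → ℕ) (e : D) : Prop :=
  ∃ k m, Lm T w o t k m ∧ T.Rel w ((T.st w)^[m] o) e

theorem Main.rel_iff [Finite D] (hP : T.Planar) (hF : Feet T w o K t) {e : D}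
    (hM : Main T w o t e) {k m : ℕ} (hk : 1 ≤ k) (h1 : t k ≤ m) (h2 : m < t (k + 1)) {a b j : ℕ}
    (ha : a ≤ t (k - 1)) (hb : t (k + 2) ≤ b) (hja : t j ≤ a) (hjb : b ≤ t (j + K - 1)) :
    T.Rel w e ((T.st w)^[m] o) ↔ T.Mi w ((T.st w)^[m] o) ∧ DisjOn T w o a b m := by
  obtain ⟨k0, m0, hm0, hr⟩ := hM
  rw [← hF.rel_iff hP hm0 hk h1 h2 ha hb hja hjb]
  exact ⟨fun h => T.rel_trans hr h, fun h => T.rel_trans (T.rel_symm hr) h⟩

/-- A full cell: the sum over the chain is the window value. -/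
theorem Loop.cell_sum [Finite D] (hP : T.Planar) (hF : Feet T w o K t)
    (hL : Loop T π O w o n c τ) (hM : Main T w o t (c 0)) (h6 : 6 ≤ K) {M : Type*}
    [AddCommMonoid M] (ϑ : D → M) {iy ix k : ℕ} (hyx : iy ≤ ix) (hix : ix < n) (hk : 2 ≤ k)
    (hy : τ iy ≤ t (k - 1)) (hx : t (k + 2) ≤ τ ix)
    (supp : ∀ m < per T w o, ϑ ((T.st w)^[m] o) ≠ 0 → t (k - 1) ≤ m ∧ m < t (k + 2)) :
    ∑ i ∈ Finset.Ico iy ix, ϑ (c i) = sideSum T w o (t (k - 2)) (t (k + 3)) ϑ := by
  classical
  have hxL := hL.lt ix hix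
  have hK : t K = per T w o := by
    have := hF.add 0
    rwa [zero_add, hF.zero, zero_add] at this
  have hkK : k + 2 < K := by
    by_contra hc
    have := hF.mono (show K ≤ k + 2 by omega)
    omega
  have e1 := hF.mono (show k - 2 ≤ k - 1 by omega)
  have e2 := hF.mono (show k - 1 ≤ k + 2 by omega)
  have e3 := hF.mono (show k + 2 ≤ k + 3 by omega)
  have e4 := hF.mono (show k + 3 ≤ K by omega)
  rw [hL.sum ϑ hyx hix]
  unfold sideSum
  have hmid : ∀ m ∈ Finset.Ico (t (k - 1)) (t (k + 2)),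
      (if T.Rel w (c 0) ((T.st w)^[m] o) then ϑ ((T.st w)^[m] o) else 0) =
      if T.Mi w ((T.st w)^[m] o) ∧ DisjOn T w o (t (k - 2)) (t (k + 3)) m
        then ϑ ((T.st w)^[m] o) else 0 := by
    intro m hm
    rw [Finset.mem_Ico] at hm
    obtain ⟨j, hj1, hj2⟩ := hF.loc m
    have hj3 : k - 1 ≤ j := by
      by_contra hc
      have := hF.mono (show j + 1 ≤ k - 1 by omega)
      omega
    have hj4 : j ≤ k + 1 := by
      by_contra hc
      have := hF.mono (show k + 2 ≤ j by omega)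
      omega
    have := Main.rel_iff hP hF hM (k := j) (by omega) hj1 hj2 (a := t (k - 2)) (b := t (k + 3))
      (j := k - 2) (hF.mono (by omega)) (hF.mono (by omega)) le_rfl (hF.mono (by omega))
    exact if_congr this rfl rfl
  have h1 : ∑ m ∈ Finset.Ico (τ iy) (τ ix),
      (if T.Rel w (c 0) ((T.st w)^[m] o) then ϑ ((T.st w)^[m] o) else 0) =
      ∑ m ∈ Finset.Ico (t (k - 1)) (t (k + 2)),
      (if T.Rel w (c 0) ((T.st w)^[m] o) then ϑ ((T.st w)^[m] o) else 0) := by
    symm
    apply Finset.sum_subset (Finset.Ico_subset_Ico hy hx)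
    intro m hm hm'
    rw [Finset.mem_Ico] at hm hm'
    rw [ite_eq_right_iff]
    intro _
    by_contra hc
    exact hm' (supp m (by omega) hc)
  have h2 : ∑ m ∈ Finset.Ico (t (k - 2)) (t (k + 3)),
      (if T.Mi w ((T.st w)^[m] o) ∧ DisjOn T w o (t (k - 2)) (t (k + 3)) m
        then ϑ ((T.st w)^[m] o) else 0) =
      ∑ m ∈ Finset.Ico (t (k - 1)) (t (k + 2)),
      (if T.Mi w ((T.st w)^[m] o) ∧ DisjOn T w o (t (k - 2)) (t (k + 3)) m
        then ϑ ((T.st w)^[m] o) else 0) := by
    symm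
    apply Finset.sum_subset (Finset.Ico_subset_Ico e1 e3)
    intro m hm hm'
    rw [Finset.mem_Ico] at hm hm'
    rw [ite_eq_right_iff]
    intro _
    by_contra hc
    exact hm' (supp m (by omega) hc)
  rw [h1, h2]
  exact Finset.sum_congr rfl hmid

/-- A cell which is not touched by the chain. -/
theorem Loop.cell_zero (hL : Loop T π O w o n c τ) {M : Type*} [AddCommMonoid M] (ϑ : D → M)
    {iy ix : ℕ} (hix : ix < n)
    (supp : ∀ m, τ iy ≤ m → m < τ ix → ϑ ((T.st w)^[m] o) = 0) :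
    ∑ i ∈ Finset.Ico iy ix, ϑ (c i) = 0 := by
  apply Finset.sum_eq_zero
  intro i hi
  rw [Finset.mem_Ico] at hi
  rw [← hL.hit i (by omega)]
  apply supp
  · rcases hi.1.lt_or_eq with h | h
    · exact (hL.mono _ _ h (by omega)).le
    · rw [h]
  · exact hL.mono _ _ hi.2 hix

/-- `j` and `k` are equal or adjacent modulo `K`. -/
def Nr (K j k : ℕ) : Prop :=
  j = k ∨ j + 1 = k ∨ k + 1 = j ∨ (j = 0 ∧ k + 1 = K) ∨ (k = 0 ∧ j + 1 = K)

open Classical in
/-- The end cells of a chain from piece `p` to piece `q`. -/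
noncomputable def ends (K p q : ℕ) : Finset ℕ :=
  (Finset.range K).filter (fun k => (Nr K k p ∨ Nr K k q) ∧ ¬ (p + 2 ≤ k ∧ k + 2 ≤ q))

theorem card_ends (K p q : ℕ) : (ends K p q).card ≤ 6 := by
  classical
  have hsub : ends K p q ⊆
      ({p, if p = 0 then K - 1 else p - 1, if p + 1 = K then 0 else p + 1} : Finset ℕ) ∪
      ({q, if q = 0 then K - 1 else q - 1, if q + 1 = K then 0 else q + 1} : Finset ℕ) := by
    intro k hk
    unfold ends at hk
    rw [Finset.mem_filter, Finset.mem_range] at hk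
    obtain ⟨h1, h2 | h2, -⟩ := hk
    · rw [Finset.mem_union]
      left
      simp only [Finset.mem_insert, Finset.mem_singleton]
      unfold Nr at h2
      split_ifs <;> omega
    · rw [Finset.mem_union]
      right
      simp only [Finset.mem_insert, Finset.mem_singleton]
      unfold Nr at h2
      split_ifs <;> omega
  refine (Finset.card_le_card hsub).trans ((Finset.card_union_le _ _).trans ?_)
  have h3 : ∀ a b c : ℕ, ({a, b, c} : Finset ℕ).card ≤ 3 := fun a b c => Finset.card_le_three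
  have := h3 p (if p = 0 then K - 1 else p - 1) (if p + 1 = K then 0 else p + 1)
  have := h3 q (if q = 0 then K - 1 else q - 1) (if q + 1 = K then 0 else q + 1)
  omega

/-- **The value of the closing chain.** -/
theorem Loop.value [Finite D] (hP : T.Planar) (hF : Feet T w o K t)
    (hL : Loop T π O w o n c τ) (hM : Main T w o t (c 0)) (h6 : 6 ≤ K) {M : Type*}
    [AddCommMonoid M] {Θ : D → M} {ϑ : ℕ → D → M} {iy ix p q : ℕ} (hyx : iy ≤ ix) (hix : ix < n)
    (hp : t p ≤ τ iy) (hp' : τ iy < t (p + 1)) (hq : t q ≤ τ ix) (hq' : τ ix < t (q + 1))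
    (hsum : ∀ m < per T w o, Θ ((T.st w)^[m] o) =
      ∑ k ∈ Finset.range K, ϑ k ((T.st w)^[m] o))
    (supp : ∀ k < K, ∀ j < K, ∀ m, t j ≤ m → m < t (j + 1) → ϑ k ((T.st w)^[m] o) ≠ 0 → Nr K j k) :
    ∑ i ∈ Finset.Ico iy ix, Θ (c i) =
      (∑ k ∈ Finset.Ico (p + 2) (q - 1), sideSum T w o (t (k - 2)) (t (k + 3)) (ϑ k)) +
        ∑ k ∈ ends K p q, ∑ i ∈ Finset.Ico iy ix, ϑ k (c i) := by
  classical
  have hxL := hL.lt ix hix
  have hK : t K = per T w o := by
    have := hF.add 0
    rwa [zero_add, hF.zero, zero_add] at this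
  have hqK : q < K := by
    by_contra hc
    have := hF.mono (show K ≤ q by omega)
    omega
  have hτ : τ iy ≤ τ ix := by
    rcases hyx.lt_or_eq with h | h
    · exact (hL.mono _ _ h hix).le
    · rw [h]
  have hpq : p ≤ q := by
    by_contra hc
    have := hF.mono (show q + 1 ≤ p by omega)
    omega
  have h1 : ∑ i ∈ Finset.Ico iy ix, Θ (c i) =
      ∑ k ∈ Finset.range K, ∑ i ∈ Finset.Ico iy ix, ϑ k (c i) := by
    rw [Finset.sum_comm]
    apply Finset.sum_congr rfl
    intro i hi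
    rw [Finset.mem_Ico] at hi
    rw [← hL.hit i (by omega)]
    exact hsum _ (hL.lt i (by omega))
  rw [h1, ← Finset.sum_filter_add_sum_filter_not (Finset.range K)
    (fun k => p + 2 ≤ k ∧ k + 2 ≤ q)]
  congr 1
  · have e : (Finset.range K).filter (fun k => p + 2 ≤ k ∧ k + 2 ≤ q) =
        Finset.Ico (p + 2) (q - 1) := by
      ext k
      rw [Finset.mem_filter, Finset.mem_range, Finset.mem_Ico]
      omega
    rw [e]
    apply Finset.sum_congr rfl
    intro k hk
    rw [Finset.mem_Ico] at hk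
    apply hL.cell_sum hP hF hM h6 (ϑ k) hyx hix (by omega)
      (hp'.le.trans (hF.mono (by omega))) ((hF.mono (by omega)).trans hq)
    intro m hm hne
    obtain ⟨j, hj1, hj2⟩ := hF.loc m
    have hjK : j < K := by
      by_contra hc
      have := hF.mono (show K ≤ j by omega)
      omega
    have hN := supp k (by omega) j hjK m hj1 hj2 hne
    have hj3 : k - 1 ≤ j ∧ j ≤ k + 1 := by
      unfold Nr at hN
      omega
    exact ⟨(hF.mono hj3.1).trans hj1, lt_of_lt_of_le hj2 (hF.mono (by omega))⟩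
  · symm
    unfold ends
    have e : (Finset.range K).filter (fun k => (Nr K k p ∨ Nr K k q) ∧ ¬ (p + 2 ≤ k ∧ k + 2 ≤ q)) ⊆
        (Finset.range K).filter (fun k => ¬ (p + 2 ≤ k ∧ k + 2 ≤ q)) := by
      intro k
      simp only [Finset.mem_filter]
      exact fun h => ⟨h.1, h.2.2⟩
    apply Finset.sum_subset e
    intro k hk hk'
    simp only [Finset.mem_filter, Finset.mem_range] at hk hk'
    have hnp : ¬ Nr K k p := fun h => hk' ⟨hk.1, Or.inl h, hk.2⟩
    have hnq : ¬ Nr K k q := fun h => hk' ⟨hk.1, Or.inr h, hk.2⟩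
    apply hL.cell_zero (ϑ k) hix
    intro m hm1 hm2
    by_contra hne
    obtain ⟨j, hj1, hj2⟩ := hF.loc m
    have hj3 : p ≤ j := by
      by_contra hc
      have := hF.mono (show j + 1 ≤ p by omega)
      omega
    have hj4 : j ≤ q := by
      by_contra hc
      have := hF.mono (show q + 1 ≤ j by omega)
      omega
    have hN := supp k hk.1 j (by omega) m hj1 hj2 hne
    unfold Nr at hN hnp hnq
    omega

end loop

end Vale.Agent.P148.R2.H659
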