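import Vale.Agent.P148.R2.H659.Close4
import Vale.Agent.P148.R2.H400.Flip8
import Vale.Agent.P148.R2.H565.Mc2

/-!
# The value of the closing chains of the doors

Bridge to the closed loops of helper565 and to the closing chains of helper400: the value of the closing
chain of an excursion which faces an arc is the sum of the window values of the full cells between its landing
and its start and of at most six partial sums.
-/

namespace Vale.Agent.P148.R2.H659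

open Function Vale.Agent.P148.R2.H258 Vale.Agent.P148.R2.H871 Vale.Agent.P148.R2.H565

variable {V V1 D : Type*} {T : Tri V D} {T1 : Tri V1 D} {K : ℕ} {t : ℕ → ℕ}

/-- helper565's loops. -/
theorem feet_of_loopT {σ : V → Bool} {o : D} (h : LoopT T σ K o t) (h4 : 4 ≤ K) :
    Feet T σ o K t :=
  ⟨h4, h.bi, h.zero, h.inc, h.per, h.adj⟩

theorem Feet.loopT {σ : V → Bool} {o : D} (h : Feet T σ o K t) : LoopT T σ K o t :=
  ⟨h.bi, h.zero, h.inc, h.add, h.far⟩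

/-- helper565's local membership. -/
theorem Feet.lm_iff {σ : V → Bool} {o : D} (h : Feet T σ o K t) {k m : ℕ} (hk : 1 ≤ k)
    (h1 : t k ≤ m) (h2 : m < t (k + 1)) :
    Lm T σ o t k m ↔ T.Mi σ ((T.st σ)^[m] o) ∧ LD T σ o t m := by
  have h4 := h.four
  have := h.loopT.disjOn_iff (a := k - 1) (b := k + 2) (α := t (k - 1)) (β := t (k + 2)) le_rfl
    le_rfl (by omega) le_rfl le_rfl hk h1 h2
  unfold Lm
  rw [this]
  exact ⟨fun hh => hh.2.2.2, fun hh => ⟨hk, h1, h2, hh⟩⟩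

section sq

variable {π : V → V1} {O : V1} {w : V → Bool} {o : D} {n : ℕ} {c : ℕ → D} {τ : ℕ → ℕ}

/-- The value of the closing chain, squared form. -/
theorem Loop.value_sq [Finite D] (hP : T.Planar) (hF : Feet T w o K t)
    (hL : Loop T π O w o n c τ) (hM : Main T w o t (c 0)) (h6 : 6 ≤ K) {Θ : D → ℂ}
    {ϑ : ℕ → D → ℂ} {iy ix p q : ℕ} (hyx : iy ≤ ix) (hix : ix < n)
    (hp : t p ≤ τ iy) (hp' : τ iy < t (p + 1)) (hq : t q ≤ τ ix) (hq' : τ ix < t (q + 1))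
    (hsum : ∀ m < per T w o, Θ ((T.st w)^[m] o) =
      ∑ k ∈ Finset.range K, ϑ k ((T.st w)^[m] o))
    (supp : ∀ k < K, ∀ j < K, ∀ m, t j ≤ m → m < t (j + 1) → ϑ k ((T.st w)^[m] o) ≠ 0 → Nr K j k) :
    ‖∑ i ∈ Finset.Ico iy ix, Θ (c i)‖ ^ 2 ≤
      2 * ‖∑ k ∈ Finset.Ico (p + 2) (q - 1), sideSum T w o (t (k - 2)) (t (k + 3)) (ϑ k)‖ ^ 2 +
        12 * ∑ k ∈ ends K p q, ‖∑ i ∈ Finset.Ico iy ix, ϑ k (c i)‖ ^ 2 := by
  rw [hL.value hP hF hM h6 hyx hix hp hp' hq hq' hsum supp]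
  set A := ∑ k ∈ Finset.Ico (p + 2) (q - 1), sideSum T w o (t (k - 2)) (t (k + 3)) (ϑ k)
  set f : ℕ → ℂ := fun k => ∑ i ∈ Finset.Ico iy ix, ϑ k (c i) with hf
  have h1 : ‖A + ∑ k ∈ ends K p q, f k‖ ≤ ‖A‖ + ∑ k ∈ ends K p q, ‖f k‖ :=
    (norm_add_le _ _).trans (by gcongr; exact norm_sum_le _ _)
  have h2 : (∑ k ∈ ends K p q, ‖f k‖) ^ 2 ≤ (ends K p q).card * ∑ k ∈ ends K p q, ‖f k‖ ^ 2 :=
    sq_sum_le_card_mul_sum_sq
  have h3 : ((ends K p q).card : ℝ) ≤ 6 := by exact_mod_cast card_ends K p q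
  have h4 : 0 ≤ ∑ k ∈ ends K p q, ‖f k‖ ^ 2 := Finset.sum_nonneg fun _ _ => by positivity
  have h5 : 0 ≤ ∑ k ∈ ends K p q, ‖f k‖ := Finset.sum_nonneg fun _ _ => norm_nonneg _
  have h6 : ‖A + ∑ k ∈ ends K p q, f k‖ ^ 2 ≤ (‖A‖ + ∑ k ∈ ends K p q, ‖f k‖) ^ 2 := by
    gcongr
  have h7 : (∑ k ∈ ends K p q, ‖f k‖) ^ 2 ≤ 6 * ∑ k ∈ ends K p q, ‖f k‖ ^ 2 :=
    h2.trans (by gcongr)
  nlinarith [sq_nonneg (‖A‖ - ∑ k ∈ ends K p q, ‖f k‖), norm_nonneg A]

/-- **The closing chains of the doors**: indices and pieces of the landing and of the start. -/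
theorem Loop.clH [Finite D] (hP : T.Planar) (hP1 : T1.Planar) (hC : Contr T T1 π)
    (hinj : H400.InjOff π O) (hF : Feet T w o K t) (hL : Loop T π O w o n c τ) {s : ℕ}
    (hnl : ∀ f, T.tgt f ≠ T.src f) {σ : V1 → Bool} {d : D} (hd : H400.Start T1 σ d)
    (hdO : T1.src d = O) (hFc : H400.Facing T1 (arc T T1 O c s) σ d)
    (hne : (arc T T1 O c s).Nonempty) :
    ∃ iy ix p q, s ≤ iy ∧ iy ≤ ix ∧ ix < n ∧ t p ≤ τ iy ∧ τ iy < t (p + 1) ∧ t q ≤ τ ix ∧
      τ ix < t (q + 1) ∧ p ≤ q ∧ q < K ∧ T.apex (H400.lst T1 σ d) = T.src (c iy) ∧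
      T.src d = T.src (c ix) ∧
      ∀ Θ : D → ℂ, ((H400.clH T c n d (H400.lst T1 σ d)).map Θ).sum =
        ∑ i ∈ Finset.Ico iy ix, Θ (c i) := by
  obtain ⟨g, iy, ix, hg, hgO, hsy, hyx, hix, hy, hx⟩ := close hP hP1 hC hinj hL.ring hd hdO
    (fun f _ => by rw [‹T.src f = T.src d›.symm]; exact hnl f) hFc hne
  have hgl : H400.lst T1 σ d = g := by
    have h1 := H400.lst_rel hP1 hd
    have h2 := H400.lst_apex hP1 hd
    obtain ⟨k, f, hk, hg0, hgk, hs, hij, hrel, -⟩ := T1.class_cycle hP1 hd.1 hd.2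
    obtain ⟨i, hi, hi2⟩ := (hrel _).1 h1
    obtain ⟨i', hi', hi2'⟩ := (hrel _).1 hg
    have key : ∀ i < k, T1.apex (f i) = T1.src d → i + 1 = k := by
      intro i hi h3
      by_contra hne
      have h4 := hs i hi
      rw [h3, ← hg0] at h4
      exact absurd (hij (i + 1) (by omega) 0 hk h4) (by omega)
    have e1 := key i hi (by rw [← hi2]; exact h2)
    have e2 := key i' hi' (by rw [← hi2', hgO, hdO])
    rw [hi2, hi2']
    congr 1; omega
  obtain ⟨p, hp1, hp2⟩ := hF.loc (τ iy)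
  obtain ⟨q, hq1, hq2⟩ := hF.loc (τ ix)
  have hK : t K = per T w o := by
    have := hF.add 0
    rwa [zero_add, hF.zero, zero_add] at this
  have hτ : τ iy ≤ τ ix := by
    rcases hyx.lt_or_eq with h | h
    · exact (hL.mono _ _ h hix).le
    · rw [h]
  have hxL := hL.lt ix hix
  have hpq : p ≤ q := by
    by_contra hc
    have := hF.mono (show q + 1 ≤ p by omega)
    omega
  have hqK : q < K := by
    by_contra hc
    have := hF.mono (show K ≤ q by omega)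
    omega
  refine ⟨iy, ix, p, q, hsy, hyx, hix, hp1, hp2, hq1, hq2, hpq, hqK, ?_, hx, ?_⟩
  · rw [hgl]; exact hy
  · intro Θ
    rw [H400.clH_sum, hgl, hy, hx, H400.idx_eq hL.ring (by omega), H400.idx_eq hL.ring hix]

end sq

end Vale.Agent.P148.R2.H659
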