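import Vale.Agent.P148.R2.H659.Close5
import Vale.Agent.P148.R2.H659.Close6
import Vale.Agent.P148.R2.H488.Cw
import Vale.Agent.P148.R2.H598.Lln5
import Vale.Agent.P148.R2.H400.Flip11
import Vale.Agent.P148.R2.H291.Site
import Vale.Agent.P148.R2.H172.Sc2

/-!
# The value of the closing chain of a captured excursion, one world

`ArcLoop M g w x₀ col o t n c τ` : the closed strand with the foot of the gate `g` as base.
`wnl` : the window part of the value. `val_world` : the square of the value is at most twice the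
largest square of a partial sum of the cell values plus twice the window part.
-/

open Set Metric Function
open scoped ENNReal

namespace Vale.Agent.P148.R2.H659

open Vale.Agent.P148.R2.H258 Vale.Agent.P148.R2.H871 Vale.Agent.P148.R2.H565
open Vale.Agent.P148.R2.H184 Vale.Agent.P148.R2.H203
open Vale.Agent.P148.R2.H592 (idmap fib_id tail head vc cr Fc)
open Vale.Agent.P148.R2.N (ms nc gateC cellC csq ms_pos)
open Vale.Agent.P148.R2.H959 (reg)
open Vale.Agent.P148.R2.H488 (cw hc cw_ne cw_of sum_cw hc_cover hc_unique' hc_mod)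
open Vale.Agent.P148.R2.H504 (arcSum)
open Vale.Agent.P148.R2.H598 (mxs le_mxs)
open Vale.Agent.P148.R2.H566 (W0 Asq)
open Vale.Agent.P148.R2.H609 (TP piX)
open Vale.Agent.P148.R2.H400 (hvl clH lst Start Facing contrB noloop_TP)

/-! ### cyclic sums -/

theorem sum_mod_eq_arcSum {n : ℕ} (v : ℕ → ℂ) {a b : ℕ} (hn : 0 < n) (hab : a ≤ b)
    (hb : b < a + n) : ∑ k ∈ Finset.Ico a b, v (k % n) = arcSum n v (a % n) (b % n) := by
  obtain ⟨c, a0, h0, rfl⟩ : ∃ c a0, a0 < n ∧ a = a0 + n * c :=
    ⟨a / n, a % n, Nat.mod_lt _ hn, (Nat.mod_add_div a n).symm⟩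
  have key : ∀ c x y, y ≤ n → ∑ k ∈ Finset.Ico (x + n * c) (y + n * c), v (k % n) =
      ∑ k ∈ Finset.Ico x y, v k := by
    intro c x y hy
    rw [← Finset.sum_Ico_add' (fun k => v (k % n)) x y (n * c)]
    apply Finset.sum_congr rfl
    intro k hk
    rw [Finset.mem_Ico] at hk
    rw [Nat.add_mul_mod_self_left, Nat.mod_eq_of_lt (by omega)]
  rw [Nat.add_mul_mod_self_left, Nat.mod_eq_of_lt h0]
  by_cases h1 : b < n + n * c
  · obtain ⟨b0, rfl⟩ : ∃ b0, b = b0 + n * c := ⟨b - n * c, by omega⟩
    rw [key c _ _ (by omega), Nat.add_mul_mod_self_left, Nat.mod_eq_of_lt (by omega)]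
    unfold arcSum
    rw [if_pos (by omega)]
  · have h2 : n * (c + 1) = n + n * c := by ring
    obtain ⟨b0, rfl⟩ : ∃ b0, b = b0 + n * (c + 1) := ⟨b - n * (c + 1), by omega⟩
    rw [Nat.add_mul_mod_self_left, Nat.mod_eq_of_lt (by omega)]
    unfold arcSum
    rw [if_neg (by omega), ← Finset.sum_Ico_consecutive _ (show a0 + n * c ≤ n + n * c by omega)
      (show n + n * c ≤ b0 + n * (c + 1) by omega), key c a0 n le_rfl]
    congr 1
    have h3 := key (c + 1) 0 b0 (by omega)
    rw [zero_add, h2] at h3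
    rw [h2, h3, Finset.range_eq_Ico]

/-! ### the regions next to a cell -/

/-- `z` lies in a region next to the cell `l`. -/
def NrC (M l : ℕ) (z : ℂ) : Prop :=
  z ∈ reg M (l + (nc M - 1)) ∨ z ∈ reg M l ∨ z ∈ reg M (l + 1)

theorem reg_mod (M k : ℕ) : reg M (k % nc M) = reg M k := by
  have key : ∀ n r, reg M (r + nc M * n) = reg M r := by
    intro n
    induction n with
    | zero => intro r; simp
    | succ n ih =>
      intro r
      rw [show r + nc M * (n + 1) = (r + nc M * n) + nc M by ring, H959.reg_add_nc, ih]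
  conv_rhs => rw [← Nat.mod_add_div k (nc M)]
  exact (key _ _).symm

theorem reg_congr {M k l : ℕ} (h : k % nc M = l % nc M) : reg M k = reg M l := by
  rw [← reg_mod M k, h, reg_mod]

theorem hc_congr {M k l : ℕ} (h : k % nc M = l % nc M) : hc M k = hc M l := by
  rw [← hc_mod M k, h, hc_mod]

theorem nc_pos' (M : ℕ) : 8 ≤ nc M ∨ nc M = 4 := by
  unfold nc; omega

/-- Neighbouring cells of the ring. -/
theorem NrC.of_nr {M g k j : ℕ} (hk : k < nc M) (hj : j < nc M) (h : Nr (nc M) k j) {z : ℂ}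
    (hz : z ∈ reg M (g + j)) : NrC M ((g + k) % nc M) z := by
  have hn : 0 < nc M := by omega
  have e : ∀ a b, (a + b) % nc M = (a % nc M + b) % nc M := fun a b => (Nat.mod_add_mod _ _ _).symm
  have hw : ∀ s, (g + j) % nc M = (g + k + s) % nc M → reg M (g + j) = reg M ((g + k) % nc M + s) := by
    intro s hs
    apply reg_congr
    rw [hs, Nat.mod_add_mod]
  unfold NrC
  unfold Nr at h
  rcases h with h | h | h | h | h
  · right; left
    rw [reg_mod, h]; exact hz
  · right; right
    rw [← hw 1 (by rw [show g + k + 1 = g + j by omega])]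
    exact hz
  · left
    rw [← hw (nc M - 1) (by
      rw [show g + k + (nc M - 1) = g + j + nc M by omega, Nat.add_mod_right])]
    exact hz
  · left
    rw [← hw (nc M - 1) (by rw [show g + k + (nc M - 1) = g + j by omega])]
    exact hz
  · right; right
    rw [← hw 1 (by
      rw [show g + k + 1 = g + j + nc M by omega, Nat.add_mod_right])]
    exact hz

/-- The cell of a circumcentre is next to the region of the vertex. -/
theorem nr_of_hc {M g k j : ℕ} (hM : 0 < M) (hk : k < nc M) (hj : j < nc M) {z w : ℂ}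
    (hw : w ∈ reg M (g + j)) (hz : z ∈ csq w (ms M / 16)) (h : z ∈ hc M (g + k)) :
    Nr (nc M) j k := by
  have hn : 8 ≤ nc M := by unfold nc; omega
  have key : ∀ s, s < nc M → (g + k) % nc M = (g + s) % nc M → k = s := by
    intro s hs h1
    have h2 : k % nc M = s % nc M := Nat.ModEq.add_left_cancel' g h1
    rwa [Nat.mod_eq_of_lt hk, Nat.mod_eq_of_lt hs] at h2
  unfold Nr
  rcases hc_cover hM hw hz with h1 | h1 | h1
  · have h2 := hc_unique' hM h h1
    rcases Nat.eq_zero_or_pos j with h3 | h3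
    · have := key (nc M - 1) (by omega) (by
        rw [h2, h3, show g + 0 + (nc M - 1) = g + (nc M - 1) by omega])
      omega
    · have := key (j - 1) (by omega) (by
        rw [h2, show g + j + (nc M - 1) = g + (j - 1) + nc M by omega, Nat.add_mod_right])
      omega
  · have := key j hj (hc_unique' hM h h1)
    omega
  · have h2 := hc_unique' hM h h1
    by_cases h3 : j + 1 < nc M
    · have := key (j + 1) h3 (by rw [h2, show g + j + 1 = g + (j + 1) by omega])
      omega
    · have := key 0 (by omega) (by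
        rw [h2, show g + j + 1 = g + 0 + nc M by omega, Nat.add_mod_right])
      omega

/-- The parts of the weight add up. -/
theorem sum_cw_hc {M g j : ℕ} (hM : 0 < M) {w : ℂ} {Θ : Dt → ℂ} {d : Dt}
    (hw : w ∈ reg M (g + j)) (h0 : cr d.1 d.2.1 d.2.2 ≠ 0) (hz : cc d ∈ csq w (ms M / 16)) :
    Θ d = ∑ k ∈ Finset.range (nc M), cw (hc M (g + k)) Θ d := by
  have hn : 0 < nc M := by unfold nc; omega
  have key : ∀ l, cc d ∈ hc M l → Θ d = ∑ k ∈ Finset.range (nc M), cw (hc M (g + k)) Θ d := by
    intro l hl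
    obtain ⟨i, hi, h1⟩ : ∃ i < nc M, (g + i) % nc M = l % nc M := by
      refine ⟨(l + g * nc M - g) % nc M, Nat.mod_lt _ hn, ?_⟩
      have h2 : g ≤ g * nc M := Nat.le_mul_of_pos_right g hn
      rw [Nat.add_mod_mod, show g + (l + g * nc M - g) = l + g * nc M by omega,
        Nat.add_mul_mod_self_right]
    symm
    apply sum_cw (Finset.range (nc M)) (fun k => hc M (g + k)) h0 (i := i)
      (Finset.mem_range.2 hi)
    · rw [hc_congr h1]; exact hl
    · intro s hs h2
      rw [Finset.mem_range] at hs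
      have h3 := hc_unique' hM h2 hl
      rw [← h1] at h3
      have h4 : s % nc M = i % nc M := Nat.ModEq.add_left_cancel' g h3
      rwa [Nat.mod_eq_of_lt hs, Nat.mod_eq_of_lt hi] at h4
  rcases hc_cover hM hw hz with h1 | h1 | h1
  · exact key _ h1
  · exact key _ h1
  · exact key _ h1

/-! ### the loop of an arc -/

/-- **The closed strand of the ring with the foot of the gate `g` as base.** -/
structure ArcLoop (M g : ℕ) (w : W0) (x₀ : w.X) (col : w.X → Bool) (o : w.D) (t : ℕ → ℕ) (n : ℕ)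
    (c : ℕ → w.D) (τ : ℕ → ℕ) : Prop where
  feet : Feet (TP w x₀) col o (nc M) t
  loop : Loop (TP w x₀) (piX w) w.O col o n c τ
  main : Main (TP w x₀) col o t (c 0)
  seen : ∀ k i, t k ≤ i → i < t (k + 1) →
    ((TP w x₀).src (((TP w x₀).st col)^[i] o)).1 ∈ reg M (g + k)

open Classical in
/-- The window part of the value of a closing chain: the parts of the cells next to the landing or
to the start. -/
noncomputable def wnl (w : W0) (x₀ : w.X) (H : w.D → w.D → List w.D) (M : ℕ) (Θ : Dt → ℂ)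
    (σ : w.V → Bool) (d : w.D) : ℝ≥0∞ :=
  6 * ∑ l ∈ Finset.range (nc M),
    if NrC M l (tail d) ∨ NrC M l (vc (lst w.T σ d).1 (lst w.T σ d).2) then
      ENNReal.ofReal (‖hvl w x₀ H (cw (hc M l) Θ) σ d‖ ^ 2) else 0

section val

variable {M g : ℕ} {w : W0} {x₀ : w.X} {col : w.X → Bool} {o : w.D} {t : ℕ → ℕ} {n : ℕ}
  {c : ℕ → w.D} {τ : ℕ → ℕ}

/-- **The value of the closing chain of a captured excursion.** -/
theorem ArcLoop.val (hA : ArcLoop M g w x₀ col o t n c τ) (hM : 0 < M) {Θ : Dt → ℂ} {v : ℕ → ℂ}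
    (hcc : ∀ k, ∀ q : w.D, tail q ∈ reg M k → cr (dt q).1 (dt q).2.1 (dt q).2.2 ≠ 0 ∧
      cc (dt q) ∈ csq (tail q) (ms M / 16))
    (hcell : ∀ k, 2 ≤ k → k + 3 ≤ nc M → sideSum (TP w x₀) col o (t (k - 2)) (t (k + 3))
      (wt w.hull (idmap w.X x₀) (fib_id w.X x₀) (cw (hc M (g + k)) Θ)) = v ((g + k) % nc M))
    {s : ℕ} {σ : w.V → Bool} {d : w.D} (hne : (arc (TP w x₀) w.T w.O c s).Nonempty)
    (hcap : w.cap (arc (TP w x₀) w.T w.O c s) σ d) :
    ENNReal.ofReal (‖hvl w x₀ (clH (TP w x₀) c n) Θ σ d‖ ^ 2) ≤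
      2 * mxs M v + 2 * wnl w x₀ (clH (TP w x₀) c n) M Θ σ d := by
  classical
  have hn8 : 8 ≤ nc M := by unfold nc; omega
  have hn : 0 < nc M := by omega
  have hP : (TP w x₀).Planar := w.hull.planar258 _ _
  have hK : t (nc M) = per (TP w x₀) col o := by
    have := hA.feet.add 0
    rwa [zero_add, hA.feet.zero, zero_add] at this
  obtain ⟨hdO, hdS, hdF, -, -⟩ := hcap
  have hinj : H400.InjOff (piX w) w.O := by
    intro u v huv hu
    have h1 := H400.secB_piB (B := w.B) x₀ (v := u) hu
    have h2 := H400.secB_piB (B := w.B) x₀ (v := v) (fun hh => hu (huv.trans hh))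
    rw [← h1, ← h2]
    exact congrArg _ huv
  obtain ⟨iy, ix, p, q, -, hyx, hix, hp1, hp2, hq1, hq2, hpq, hqK, hy, hx, hsumc⟩ :=
    hA.loop.clH hP w.planar (contrB w.hull w.fib x₀) hinj hA.feet (fun f => noloop_TP f) hdS hdO hdF hne
  set ϑ : ℕ → w.D → ℂ := fun k => wt w.hull (idmap w.X x₀) (fib_id w.X x₀) (cw (hc M (g + k)) Θ)
    with hϑ
  have hreg : ∀ m j, t j ≤ m → m < t (j + 1) → tail (((TP w x₀).st col)^[m] o) ∈ reg M (g + j) := by
    intro m j h1 h2
    have := hA.seen j m h1 h2
    rwa [src0] at this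
  have hloc : ∀ m < per (TP w x₀) col o, ∃ j < nc M, t j ≤ m ∧ m < t (j + 1) := by
    intro m hm
    obtain ⟨j, h1, h2⟩ := hA.feet.loc m
    refine ⟨j, ?_, h1, h2⟩
    by_contra hc
    have := hA.feet.mono (show nc M ≤ j by omega)
    omega
  have hval : ∀ k, ((clH (TP w x₀) c n d (lst w.T σ d)).map (ϑ k)).sum =
      ∑ i ∈ Finset.Ico iy ix, ϑ k (c i) := fun k => hsumc (ϑ k)
  have hmain := hA.loop.value_sq hP hA.feet hA.main (by omega)
    (Θ := wt w.hull (idmap w.X x₀) (fib_id w.X x₀) Θ) (ϑ := ϑ) hyx hix hp1 hp2 hq1 hq2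
    (by
      intro m hm
      obtain ⟨j, hj, h1, h2⟩ := hloc m hm
      obtain ⟨c1, c2⟩ := hcc _ _ (hreg m j h1 h2)
      simp only [hϑ, wt]
      split_ifs
      · exact sum_cw_hc hM (hreg m j h1 h2) c1 c2
      · simp)
    (by
      intro k hk j hj m h1 h2 hne'
      obtain ⟨c1, c2⟩ := hcc _ _ (hreg m j h1 h2)
      apply nr_of_hc hM hk hj (hreg m j h1 h2) c2
      simp only [hϑ, wt] at hne'
      split_ifs at hne' with hgd
      · exact (cw_ne hne').2.1
      · exact absurd rfl hne')
  have hhv : hvl w x₀ (clH (TP w x₀) c n) Θ σ d =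
      ∑ i ∈ Finset.Ico iy ix, wt w.hull (idmap w.X x₀) (fib_id w.X x₀) Θ (c i) := hsumc _
  rw [hhv]
  -- the full cells
  have hmid : ENNReal.ofReal (‖∑ k ∈ Finset.Ico (p + 2) (q - 1),
      sideSum (TP w x₀) col o (t (k - 2)) (t (k + 3)) (ϑ k)‖ ^ 2) ≤ mxs M v := by
    rcases Nat.lt_or_ge (p + 2) (q - 1) with h | h
    · have e1 : ∑ k ∈ Finset.Ico (p + 2) (q - 1),
          sideSum (TP w x₀) col o (t (k - 2)) (t (k + 3)) (ϑ k) =
          arcSum (nc M) v ((g + (p + 2)) % nc M) ((g + (q - 1)) % nc M) := by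
        rw [← sum_mod_eq_arcSum v hn (by omega) (by omega), add_comm g (p + 2),
          add_comm g (q - 1), ← Finset.sum_Ico_add']
        apply Finset.sum_congr rfl
        intro k hk
        rw [Finset.mem_Ico] at hk
        rw [add_comm k g]
        exact hcell k (by omega) (by omega)
      rw [e1]
      exact le_mxs v (Nat.mod_lt _ hn).le (Nat.mod_lt _ hn).le
    · rw [Finset.Ico_eq_empty_of_le h]
      simp
  -- the end cells
  have hend : ENNReal.ofReal (∑ k ∈ ends (nc M) p q, ‖∑ i ∈ Finset.Ico iy ix, ϑ k (c i)‖ ^ 2) ≤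
      ∑ l ∈ Finset.range (nc M),
        if NrC M l (tail d) ∨ NrC M l (vc (lst w.T σ d).1 (lst w.T σ d).2) then
          ENNReal.ofReal (‖hvl w x₀ (clH (TP w x₀) c n) (cw (hc M l) Θ) σ d‖ ^ 2) else 0 := by
    rw [ENNReal.ofReal_sum_of_nonneg fun _ _ => by positivity]
    set f : ℕ → ℝ≥0∞ := fun l =>
      if NrC M l (tail d) ∨ NrC M l (vc (lst w.T σ d).1 (lst w.T σ d).2) then
        ENNReal.ofReal (‖hvl w x₀ (clH (TP w x₀) c n) (cw (hc M l) Θ) σ d‖ ^ 2) else 0 with hf
    have h1 : ∀ k ∈ ends (nc M) p q,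
        ENNReal.ofReal (‖∑ i ∈ Finset.Ico iy ix, ϑ k (c i)‖ ^ 2) = f ((g + k) % nc M) := by
      intro k hk
      unfold ends at hk
      rw [Finset.mem_filter, Finset.mem_range] at hk
      obtain ⟨hk1, hk2, -⟩ := hk
      have hreg2 : ∀ i j, i < n → t j ≤ τ i → τ i < t (j + 1) → tail (c i) ∈ reg M (g + j) := by
        intro i j hi a1 a2
        have := hreg (τ i) j a1 a2
        rwa [hA.loop.hit i hi] at this
      have hcond : NrC M ((g + k) % nc M) (tail d) ∨
          NrC M ((g + k) % nc M) (vc (lst w.T σ d).1 (lst w.T σ d).2) := by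
        rcases hk2 with hk2 | hk2
        · right
          have e1 : vc (lst w.T σ d).1 (lst w.T σ d).2 = tail (c iy) := by
            have := congrArg Subtype.val hy
            rw [H609.apex_TP, src0] at this
            exact this
          rw [e1]
          exact NrC.of_nr hk1 (by omega) hk2 (hreg2 iy p (by omega) hp1 hp2)
        · left
          have e1 : tail d = tail (c ix) := by
            have := congrArg Subtype.val hx
            rw [src0, src0] at this
            exact this
          rw [e1]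
          exact NrC.of_nr hk1 (by omega) hk2 (hreg2 ix q hix hq1 hq2)
      rw [hf]
      simp only
      rw [if_pos hcond, hc_mod, ← hval k]
      rfl
    rw [Finset.sum_congr rfl h1]
    rw [← Finset.sum_image (f := f) (s := ends (nc M) p q) (g := fun k => (g + k) % nc M)]
    · apply Finset.sum_le_sum_of_subset
      intro l hl
      rw [Finset.mem_image] at hl
      obtain ⟨k, -, rfl⟩ := hl
      exact Finset.mem_range.2 (Nat.mod_lt _ hn)
    · intro k hk l hl hkl
      have hk' : k < nc M := by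
        have := Finset.mem_coe.1 hk
        unfold ends at this
        exact Finset.mem_range.1 (Finset.mem_filter.1 this).1
      have hl' : l < nc M := by
        have := Finset.mem_coe.1 hl
        unfold ends at this
        exact Finset.mem_range.1 (Finset.mem_filter.1 this).1
      have h2 : k % nc M = l % nc M := Nat.ModEq.add_left_cancel' g hkl
      rwa [Nat.mod_eq_of_lt hk', Nat.mod_eq_of_lt hl'] at h2
  refine (ENNReal.ofReal_le_ofReal hmain).trans ?_
  rw [ENNReal.ofReal_add (by positivity) (by positivity), ENNReal.ofReal_mul (by norm_num),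
    ENNReal.ofReal_mul (by norm_num)]
  unfold wnl
  have e2 : ENNReal.ofReal 2 = 2 := by norm_num
  have e12 : ENNReal.ofReal 12 = 2 * 6 := by norm_num
  rw [e2, e12, mul_assoc 2 6]
  gcongr

end val

end Vale.Agent.P148.R2.H659
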